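import Mathlib

/-!
Tools for the descent: evaluation at roots of unity, change of roots, a norm bound,
the energy identity over primitive roots of order `r ^ 2` and rectification of sparse functions.
-/

open Finset Polynomial ComplexConjugate

namespace Vale.Agent.P033

/-- `ω` to the power of a residue. -/
def pw {R : Type*} [Monoid R] {a : ℕ} (ω : R) (v : ZMod a) : R := ω ^ v.val

theorem pw_natCast {R : Type*} [Monoid R] {a : ℕ} [NeZero a] {ω : R} (h : ω ^ a = 1) (k : ℕ) :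
    pw ω (k : ZMod a) = ω ^ k := by
  rw [pw, ZMod.val_natCast]
  exact (pow_eq_pow_mod k h).symm

theorem pw_add {R : Type*} [Monoid R] {a : ℕ} [NeZero a] {ω : R} (h : ω ^ a = 1)
    (v w : ZMod a) : pw ω (v + w) = pw ω v * pw ω w := by
  rw [pw, pw, pw, ZMod.val_add, ← pow_eq_pow_mod _ h, pow_add]

theorem pw_zero {R : Type*} [Monoid R] {a : ℕ} [NeZero a] (ω : R) : pw ω (0 : ZMod a) = 1 := by
  simp [pw]

theorem pw_mul {R : Type*} [Monoid R] {a : ℕ} [NeZero a] {ω : R} (h : ω ^ a = 1)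
    (v w : ZMod a) : pw ω (v * w) = pw (pw ω v) w := by
  rw [pw, pw, pw, ← pow_mul, ZMod.val_mul, ← pow_eq_pow_mod _ h]

theorem conj_eq_inv {a : ℕ} (ha : a ≠ 0) {ω : ℂ} (h : ω ^ a = 1) : conj ω = ω⁻¹ :=
  (Complex.inv_eq_conj (Complex.norm_eq_one_of_pow_eq_one h ha)).symm

theorem conj_pw {a : ℕ} [NeZero a] {ω : ℂ} (h : ω ^ a = 1) (v : ZMod a) :
    conj (pw ω v) = pw ω (-v) := by
  have h1 : pw ω v * pw ω (-v) = 1 := by rw [← pw_add h, add_neg_cancel, pw_zero]
  rw [pw, map_pow, conj_eq_inv (NeZero.ne a) h, inv_pow]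
  exact (eq_inv_of_mul_eq_one_right h1).symm

theorem root_pair {M : Type*} [Field M] {a b : ℕ} (hab : a.Coprime b) (ha : 0 < a) (hb : 0 < b)
    {α β : ℕ} (hα : ((α * b : ℕ) : ZMod a) = 1) (hβ : ((β * a : ℕ) : ZMod b) = 1) {x y : M}
    (hx : IsPrimitiveRoot x a) (hy : IsPrimitiveRoot y b) :
    IsPrimitiveRoot (x ^ α * y ^ β) (a * b) ∧ (x ^ α * y ^ β) ^ b = x ∧
      (x ^ α * y ^ β) ^ a = y := by
  have : NeZero a := ⟨ha.ne'⟩
  have : NeZero b := ⟨hb.ne'⟩
  have e1 : (x ^ α * y ^ β) ^ b = x := by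
    rw [mul_pow, ← pow_mul, ← pow_mul, mul_comm β b, pow_mul y b β, hy.pow_eq_one, one_pow,
      mul_one, ← pw_natCast hx.pow_eq_one (α * b), hα, pw, ZMod.val_one_eq_one_mod,
      ← pow_eq_pow_mod 1 hx.pow_eq_one, pow_one]
  have e2 : (x ^ α * y ^ β) ^ a = y := by
    rw [mul_pow, ← pow_mul, ← pow_mul, mul_comm α a, pow_mul x a α, hx.pow_eq_one, one_pow,
      one_mul, ← pw_natCast hy.pow_eq_one (β * a), hβ, pw, ZMod.val_one_eq_one_mod,
      ← pow_eq_pow_mod 1 hy.pow_eq_one, pow_one]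
  refine ⟨IsPrimitiveRoot.mk_of_lt _ (Nat.mul_pos ha hb) ?_ fun l hl0 hl hl1 => ?_, e1, e2⟩
  · rw [pow_mul, e2, hy.pow_eq_one]
  · have d1 : a ∣ l := (hx.pow_eq_one_iff_dvd l).1 (by
      rw [← e1, ← pow_mul, mul_comm b l, pow_mul, hl1, one_pow])
    have d2 : b ∣ l := (hy.pow_eq_one_iff_dvd l).1 (by
      rw [← e2, ← pow_mul, mul_comm a l, pow_mul, hl1, one_pow])
    exact absurd (Nat.le_of_dvd hl0 (hab.mul_dvd_of_dvd_of_dvd d1 d2)) (by omega)

/-- A vanishing integral combination of powers of two coprime roots of unity vanishes at every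
pair of primitive roots of the same orders. -/
theorem transfer {K L : Type*} [Field K] [CharZero K] [Field L] [CharZero L] {a b : ℕ}
    (hab : a.Coprime b) (ha : 0 < a) (hb : 0 < b) {x₁ y₁ : K} (hx₁ : IsPrimitiveRoot x₁ a)
    (hy₁ : IsPrimitiveRoot y₁ b) {x₂ y₂ : L} (hx₂ : IsPrimitiveRoot x₂ a)
    (hy₂ : IsPrimitiveRoot y₂ b) {ι : Type*} (T : Finset ι) (c : ι → ℤ) (i j : ι → ℕ)
    (h : ∑ k ∈ T, (c k : K) * x₁ ^ i k * y₁ ^ j k = 0) :
    ∑ k ∈ T, (c k : L) * x₂ ^ i k * y₂ ^ j k = 0 := by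
  have : NeZero a := ⟨ha.ne'⟩
  have : NeZero b := ⟨hb.ne'⟩
  obtain ⟨α, hα⟩ : ∃ α : ℕ, ((α * b : ℕ) : ZMod a) = 1 := by
    refine ⟨((b : ZMod a)⁻¹).val, ?_⟩
    rw [Nat.cast_mul, ZMod.natCast_val, ZMod.cast_id, mul_comm]
    exact ZMod.coe_mul_inv_eq_one b hab.symm
  obtain ⟨β, hβ⟩ : ∃ β : ℕ, ((β * a : ℕ) : ZMod b) = 1 := by
    refine ⟨((a : ZMod b)⁻¹).val, ?_⟩
    rw [Nat.cast_mul, ZMod.natCast_val, ZMod.cast_id, mul_comm]
    exact ZMod.coe_mul_inv_eq_one a hab
  obtain ⟨p₁, f₁, g₁⟩ := root_pair hab ha hb hα hβ hx₁ hy₁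
  obtain ⟨p₂, f₂, g₂⟩ := root_pair hab ha hb hα hβ hx₂ hy₂
  set P : ℚ[X] := ∑ k ∈ T, Polynomial.C (c k : ℚ) * X ^ (b * i k + a * j k) with hP
  have h1 : aeval (x₁ ^ α * y₁ ^ β) P = ∑ k ∈ T, (c k : K) * x₁ ^ i k * y₁ ^ j k := by
    rw [hP, map_sum]
    refine sum_congr rfl fun k _ => ?_
    simp only [map_mul, map_intCast, map_pow, aeval_X]
    rw [pow_add, pow_mul _ b, pow_mul _ a, f₁, g₁, ← mul_assoc]
  have h2 : aeval (x₂ ^ α * y₂ ^ β) P = ∑ k ∈ T, (c k : L) * x₂ ^ i k * y₂ ^ j k := by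
    rw [hP, map_sum]
    refine sum_congr rfl fun k _ => ?_
    simp only [map_mul, map_intCast, map_pow, aeval_X]
    rw [pow_add, pow_mul _ b, pow_mul _ a, f₂, g₂, ← mul_assoc]
  have hd : Polynomial.cyclotomic (a * b) ℚ ∣ P := by
    rw [cyclotomic_eq_minpoly_rat p₁ (Nat.mul_pos ha hb)]
    exact minpoly.dvd ℚ _ (by rw [h1, h])
  obtain ⟨S, hS⟩ := hd
  rw [← h2, hS, map_mul, cyclotomic_eq_minpoly_rat p₂ (Nat.mul_pos ha hb),
    minpoly.aeval, zero_mul]

/-- The transfer statement in one variable. -/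
theorem transfer_one {K L : Type*} [Field K] [CharZero K] [Field L] [CharZero L] {b : ℕ}
    (hb : 0 < b) {y₁ : K} (hy₁ : IsPrimitiveRoot y₁ b) {y₂ : L} (hy₂ : IsPrimitiveRoot y₂ b)
    {ι : Type*} (T : Finset ι) (c : ι → ℤ) (j : ι → ℕ)
    (h : ∑ k ∈ T, (c k : K) * y₁ ^ j k = 0) : ∑ k ∈ T, (c k : L) * y₂ ^ j k = 0 := by
  have := transfer (Nat.coprime_one_left b) one_pos hb (IsPrimitiveRoot.one (M := K)) hy₁
    (IsPrimitiveRoot.one (M := L)) hy₂ T c (fun _ => 0) j (by simpa using h)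
  simpa using this

/-- A nonzero cyclotomic integer has mean square modulus at least one over its conjugates. -/
theorem totient_le_sum_normSq {e : ℕ} (he : 0 < e) {ι : Type*} (T : Finset ι) (c : ι → ℤ)
    (j : ι → ℕ) {ξ₀ : ℂ} (h0 : IsPrimitiveRoot ξ₀ e)
    (h : ∑ k ∈ T, (c k : ℂ) * ξ₀ ^ j k ≠ 0) :
    (e.totient : ℝ) ≤ ∑ ξ ∈ primitiveRoots e ℂ,
      Complex.normSq (∑ k ∈ T, (c k : ℂ) * ξ ^ j k) := by
  classical
  have : NeZero (e : ℂ) := ⟨by exact_mod_cast he.ne'⟩
  have hne : ∀ ξ ∈ primitiveRoots e ℂ, ∑ k ∈ T, (c k : ℂ) * ξ ^ j k ≠ 0 := fun ξ hξ h' =>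
    h (transfer_one he ((mem_primitiveRoots he).1 hξ) h0 T c j h')
  set p : ℤ[X] := ∑ k ∈ T, Polynomial.C (c k) * X ^ j k with hp
  have hev : ∀ ξ : ℂ, (p.map (Int.castRingHom ℂ)).eval ξ = ∑ k ∈ T, (c k : ℂ) * ξ ^ j k := by
    intro ξ
    simp [hp, Polynomial.map_sum, eval_finsetSum]
  obtain ⟨R, hR⟩ : ∃ R : ℤ, (R : ℂ) =
      ∏ ξ ∈ primitiveRoots e ℂ, ∑ k ∈ T, (c k : ℂ) * ξ ^ j k := by
    refine ⟨resultant (cyclotomic e ℤ) p (cyclotomic e ℤ).natDegree p.natDegree, ?_⟩
    have h1 := resultant_map_map (cyclotomic e ℤ) p (cyclotomic e ℤ).natDegree p.natDegree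
      (Int.castRingHom ℂ)
    rw [map_cyclotomic, eq_intCast] at h1
    rw [← h1]
    have hsp : (cyclotomic e ℂ).Splits := IsAlgClosed.splits _
    have h2 := resultant_eq_prod_eval (cyclotomic e ℂ) (p.map (Int.castRingHom ℂ)) p.natDegree
      natDegree_map_le hsp
    rw [natDegree_cyclotomic] at h2
    rw [natDegree_cyclotomic, h2, (cyclotomic.monic e ℂ).leadingCoeff, one_pow, one_mul,
      cyclotomic.roots_eq_primitiveRoots_val, Finset.prod]
    simp only [hev]
  have hR0 : R ≠ 0 := by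
    intro hz
    rw [hz, Int.cast_zero, eq_comm, prod_eq_zero_iff] at hR
    obtain ⟨ξ, hξ, hh⟩ := hR
    exact hne ξ hξ hh
  have hprod : 1 ≤ ∏ ξ ∈ primitiveRoots e ℂ,
      Complex.normSq (∑ k ∈ T, (c k : ℂ) * ξ ^ j k) := by
    rw [← map_prod, ← hR, Complex.normSq_intCast]
    have : (1 : ℤ) ≤ R * R := mul_self_pos.2 hR0
    exact_mod_cast this
  have hlog : 0 ≤ ∑ ξ ∈ primitiveRoots e ℂ,
      (Complex.normSq (∑ k ∈ T, (c k : ℂ) * ξ ^ j k) - 1) := by
    refine le_trans ?_ (sum_le_sum fun ξ hξ =>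
      Real.log_le_sub_one_of_pos (Complex.normSq_pos.2 (hne ξ hξ)))
    rw [← Real.log_prod fun ξ hξ => (Complex.normSq_pos.2 (hne ξ hξ)).ne']
    exact Real.log_nonneg hprod
  rw [sum_sub_distrib, sum_const, nsmul_eq_mul, mul_one, Complex.card_primitiveRoots] at hlog
  linarith

/-- Evaluation of a function on residues at a root of unity. -/
noncomputable def ev {a : ℕ} [NeZero a] (f : ZMod a → ℂ) (ω : ℂ) : ℂ := ∑ v, f v * pw ω v

theorem ev_sub {a : ℕ} [NeZero a] (f g : ZMod a → ℂ) (ω : ℂ) :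
    ev (fun v => f v - g v) ω = ev f ω - ev g ω := by
  simp [ev, sub_mul]

theorem ev_translate {a : ℕ} [NeZero a] {ω : ℂ} (h : ω ^ a = 1) (f : ZMod a → ℂ) (d : ZMod a) :
    ev (fun v => f (v - d)) ω = pw ω d * ev f ω := by
  rw [ev, ev, mul_sum]
  refine (Equiv.sum_comp (Equiv.addRight d) _).symm.trans (sum_congr rfl fun v _ => ?_)
  simp only [Equiv.coe_addRight, add_sub_cancel_right, pw_add h]
  ring

theorem ev_mul_conj {a : ℕ} [NeZero a] {ω : ℂ} (h : ω ^ a = 1) (f : ZMod a → ℂ) :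
    ev f ω * conj (ev f ω) = ev (fun d => ∑ v, f (v + d) * conj (f v)) ω := by
  simp only [ev, sum_mul]
  rw [map_sum]
  simp only [map_mul, conj_pw h, mul_sum]
  rw [sum_comm]
  conv_rhs => rw [sum_comm]
  refine sum_congr rfl fun w _ => ?_
  refine (Equiv.sum_comp (Equiv.addLeft w) _).symm.trans (sum_congr rfl fun d _ => ?_)
  simp only [Equiv.coe_addLeft]
  have : pw ω (w + d) * pw ω (-w) = pw ω d := by
    rw [← pw_add h]; congr 1; abel
  rw [← this]
  ring

variable {r : ℕ}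

/-- The class of a residue modulo `r ^ 2` modulo `r`. -/
noncomputable def cls (r : ℕ) : ZMod (r ^ 2) →+* ZMod r :=
  ZMod.castHom (dvd_pow_self r two_ne_zero) (ZMod r)

/-- The multiple `r * k` as a residue modulo `r ^ 2`. -/
def lift (k : ZMod r) : ZMod (r ^ 2) := ((r * k.val : ℕ) : ZMod (r ^ 2))

theorem cls_lift (k : ZMod r) : cls r (lift k) = 0 := by
  simp [lift]

theorem lift_inj [NeZero r] : Function.Injective (lift (r := r)) := by
  intro k l h
  have hb : ∀ k : ZMod r, r * k.val < r ^ 2 := fun k => by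
    rw [pow_two]; exact Nat.mul_lt_mul_of_pos_left (ZMod.val_lt k) (Nat.pos_of_ne_zero (NeZero.ne r))
  have := congrArg ZMod.val h
  rw [lift, lift, ZMod.val_cast_of_lt (hb k), ZMod.val_cast_of_lt (hb l)] at this
  exact ZMod.val_injective r (Nat.eq_of_mul_eq_mul_left (Nat.pos_of_ne_zero (NeZero.ne r)) this)

theorem exists_lift [NeZero r] {d : ZMod (r ^ 2)} (h : cls r d = 0) : ∃ k : ZMod r, d = lift k := by
  have h1 : ((d.val : ℕ) : ZMod r) = 0 := by
    rw [← map_natCast (cls r), ZMod.natCast_val, ZMod.cast_id, h]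
  obtain ⟨l, hl⟩ := (ZMod.natCast_eq_zero_iff d.val r).1 h1
  have hlr : l < r := by
    have := ZMod.val_lt d
    rw [hl, pow_two] at this
    exact Nat.lt_of_mul_lt_mul_left this
  refine ⟨(l : ZMod r), ?_⟩
  rw [lift, ZMod.val_cast_of_lt hlr, ← hl, ZMod.natCast_val, ZMod.cast_id]

/-- The residues with given class. -/
noncomputable def fib (r : ℕ) [NeZero r] (c : ZMod r) : Finset (ZMod (r ^ 2)) :=
  univ.filter fun v => cls r v = c

theorem fib_eq [NeZero r] (v : ZMod (r ^ 2)) :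
    fib r (cls r v) = (univ : Finset (ZMod r)).image fun k => v + lift k := by
  ext w
  simp only [fib, mem_filter, mem_univ, true_and, mem_image]
  constructor
  · intro h
    obtain ⟨k, hk⟩ := exists_lift (d := w - v) (by rw [map_sub, h, sub_self])
    exact ⟨k, by rw [← hk]; abel⟩
  · rintro ⟨k, rfl⟩
    rw [map_add, cls_lift, add_zero]

theorem card_fib [NeZero r] (c : ZMod r) : (fib r c).card = r := by
  obtain ⟨v, rfl⟩ : ∃ v, cls r v = c :=
    ⟨(c.val : ZMod (r ^ 2)), by rw [map_natCast, ZMod.natCast_val, ZMod.cast_id]⟩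
  rw [fib_eq, card_image_of_injective _ (fun k l h => lift_inj (add_left_cancel h)), card_univ,
    ZMod.card]

/-- The sum of squared differences inside classes. -/
noncomputable def disp [NeZero r] (f : ZMod (r ^ 2) → ℂ) : ℝ :=
  ∑ v, ∑ w ∈ fib r (cls r v), Complex.normSq (f v - f w)

theorem pw_primitive [hr : Fact r.Prime] {ω : ℂ} (hω : IsPrimitiveRoot ω (r ^ 2))
    {j : ZMod (r ^ 2)} (hj : cls r j ≠ 0) : IsPrimitiveRoot (pw ω j) (r ^ 2) := by
  refine hω.pow_of_coprime _ (Nat.Coprime.pow_right 2 ?_)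
  refine (hr.out.coprime_iff_not_dvd.2 fun h => hj ?_).symm
  have : ((j.val : ℕ) : ZMod r) = 0 := (ZMod.natCast_eq_zero_iff j.val r).2 h
  rwa [← map_natCast (cls r), ZMod.natCast_val, ZMod.cast_id] at this

/-- The sum of `ω` to the multiples of `d` over units. -/
theorem sum_units [hr : Fact r.Prime] {ω : ℂ} (hω : IsPrimitiveRoot ω (r ^ 2))
    (d : ZMod (r ^ 2)) :
    ∑ j ∈ univ.filter (fun j => cls r j ≠ 0), pw ω (j * d) =
      (if d = 0 then (r : ℂ) ^ 2 else 0) - (if cls r d = 0 then (r : ℂ) else 0) := by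
  have h1 := hω.pow_eq_one
  have hall : ∑ j : ZMod (r ^ 2), pw ω (j * d) = if d = 0 then (r : ℂ) ^ 2 else 0 := by
    split_ifs with hd
    · simp [hd, pw_zero]
    · have hne : pw ω d ≠ 1 := by
        intro h
        have := (hω.pow_eq_one_iff_dvd d.val).1 h
        exact hd ((ZMod.val_eq_zero d).1 (Nat.eq_zero_of_dvd_of_lt this (ZMod.val_lt d)))
      have hs : pw ω d * ∑ j : ZMod (r ^ 2), pw ω (j * d) = ∑ j : ZMod (r ^ 2), pw ω (j * d) := by
        rw [mul_sum]
        refine Eq.trans (sum_congr rfl fun j _ => ?_)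
          (Equiv.sum_comp (Equiv.addRight 1) fun j => pw ω (j * d))
        rw [Equiv.coe_addRight, add_mul, one_mul, pw_add h1, mul_comm]
      rcases mul_left_eq_self₀.1 hs with h | h
      · exact absurd h hne
      · exact h
  have hzero : ∑ j ∈ univ.filter (fun j => cls r j = 0), pw ω (j * d) =
      if cls r d = 0 then (r : ℂ) else 0 := by
    have hset : (univ.filter fun j => cls r j = 0) = (univ : Finset (ZMod r)).image lift := by
      ext j
      simp only [mem_filter, mem_univ, true_and, mem_image]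
      exact ⟨fun h => (exists_lift h).imp fun k hk => hk.symm, by rintro ⟨k, rfl⟩; exact cls_lift k⟩
    rw [hset, sum_image fun k _ l _ h => lift_inj h]
    have hlift : ∀ k : ZMod r, pw ω (lift k * d) = (ω ^ (r * d.val)) ^ k.val := by
      intro k
      rw [lift, show d = ((d.val : ℕ) : ZMod (r ^ 2)) by simp, ← Nat.cast_mul, pw_natCast h1,
        ← pow_mul]
      congr 1
      simp only [ZMod.natCast_val, ZMod.cast_id', id_eq]
      ring
    simp only [hlift]
    split_ifs with hd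
    · have : r ∣ d.val := by
        rw [← ZMod.natCast_eq_zero_iff, ← map_natCast (cls r), ZMod.natCast_val,
          ZMod.cast_id, hd]
      obtain ⟨l, hl⟩ := this
      have : ω ^ (r * d.val) = 1 := by
        rw [hl, ← mul_assoc, ← pow_two, pow_mul, h1, one_pow]
      simp [this]
    · have hne : ω ^ (r * d.val) ≠ 1 := by
        intro h
        have := (hω.pow_eq_one_iff_dvd _).1 h
        have h2 : r ∣ d.val := Nat.dvd_of_mul_dvd_mul_left hr.out.pos (by rwa [← pow_two r])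
        refine hd ?_
        rw [← ZMod.cast_id _ d, ← ZMod.natCast_val, map_natCast,
          (ZMod.natCast_eq_zero_iff d.val r).2 h2]
      set μ := ω ^ (r * d.val) with hμ
      have hμr : μ ^ r = 1 := by
        rw [hμ, ← pow_mul, show r * d.val * r = r ^ 2 * d.val by ring, pow_mul, h1, one_pow]
      have hs : μ * ∑ k : ZMod r, pw μ k = ∑ k : ZMod r, pw μ k := by
        rw [mul_sum]
        refine Eq.trans (sum_congr rfl fun k _ => ?_)
          (Equiv.sum_comp (Equiv.addRight 1) fun k => pw μ k)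
        rw [Equiv.coe_addRight, pw_add hμr, mul_comm, pw, pw, ZMod.val_one, pow_one]
      rcases mul_left_eq_self₀.1 hs with h | h
      · exact absurd h hne
      · exact h
  have hsplit := sum_filter_add_sum_filter_not (univ : Finset (ZMod (r ^ 2)))
    (fun j => cls r j = 0) (fun j => pw ω (j * d))
  rw [hall, hzero] at hsplit
  linear_combination hsplit

/-- The energy identity. -/
theorem energy [hr : Fact r.Prime] {ω : ℂ} (hω : IsPrimitiveRoot ω (r ^ 2))
    (f : ZMod (r ^ 2) → ℂ) :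
    (r : ℝ) * disp f =
      2 * ∑ j ∈ univ.filter (fun j => cls r j ≠ 0), Complex.normSq (ev f (pw ω j)) := by
  have h1 := hω.pow_eq_one
  have hconj : ∀ j : ZMod (r ^ 2), (Complex.normSq (ev f (pw ω j)) : ℂ) =
      ∑ v, ∑ w, f v * conj (f w) * pw ω (j * (v - w)) := by
    intro j
    have hj : (pw ω j) ^ (r ^ 2) = 1 := by rw [pw, ← pow_mul, mul_comm, pow_mul, h1, one_pow]
    rw [Complex.normSq_eq_conj_mul_self, mul_comm, ev, map_sum, sum_mul]
    refine sum_congr rfl fun v _ => ?_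
    rw [mul_sum]
    refine sum_congr rfl fun w _ => ?_
    rw [map_mul, conj_pw hj, ← pw_mul h1, ← pw_mul h1, mul_sub, sub_eq_add_neg, pw_add h1,
      mul_neg]
    ring
  apply Complex.ofReal_injective
  push_cast
  simp only [hconj]
  rw [sum_comm (γ := ZMod (r ^ 2))]
  have hin : ∀ v, ∑ j ∈ univ.filter (fun j => cls r j ≠ 0), ∑ w, f v * conj (f w) *
      pw ω (j * (v - w)) =
      (r : ℂ) ^ 2 * (f v * conj (f v)) - (r : ℂ) * ∑ w ∈ fib r (cls r v), f v * conj (f w) := by
    intro v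
    rw [sum_comm]
    rw [sum_congr rfl fun w _ => by rw [← mul_sum, sum_units hω]]
    simp only [mul_sub, sum_sub_distrib, mul_ite, mul_zero, sub_eq_zero]
    congr 1
    · rw [sum_ite_eq]
      simp [mul_comm]
    · rw [mul_sum, fib, sum_filter]
      refine sum_congr rfl fun w _ => ?_
      simp only [map_sub, sub_eq_zero, eq_comm (a := cls r v)]
      split_ifs <;> ring
  simp only [hin]
  rw [disp, Complex.ofReal_sum]
  simp only [Complex.ofReal_sum, Complex.normSq_eq_conj_mul_self, map_sub]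
  have hsym : ∀ g : ZMod (r ^ 2) → ZMod (r ^ 2) → ℂ,
      ∑ v, ∑ w ∈ fib r (cls r v), g v w = ∑ v, ∑ w ∈ fib r (cls r v), g w v := by
    intro g
    simp only [fib, sum_filter]
    rw [sum_comm]
    refine sum_congr rfl fun v _ => sum_congr rfl fun w _ => ?_
    simp [eq_comm]
  have hdiag : ∑ v, ∑ _w ∈ fib r (cls r v), f v * conj (f v) =
      (r : ℂ) * ∑ v, f v * conj (f v) := by
    rw [mul_sum]
    exact sum_congr rfl fun v _ => by rw [sum_const, card_fib, nsmul_eq_mul]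
  have e1 : ∀ v w, (conj (f v) - conj (f w)) * (f v - f w) =
      f v * conj (f v) + f w * conj (f w) - f v * conj (f w) - f w * conj (f v) := by
    intros; ring
  simp only [e1, sum_sub_distrib, sum_add_distrib]
  rw [← hsym fun v w => f v * conj (f v), ← hsym fun v w => f v * conj (f w), hdiag,
    ← mul_sum, ← mul_sum]
  ring

theorem disp_term_eq_zero [NeZero r] {f : ZMod (r ^ 2) → ℂ} (h : disp f = 0)
    {v w : ZMod (r ^ 2)} (hvw : cls r v = cls r w) : f v = f w := by
  rw [disp, sum_eq_zero_iff_of_nonneg fun v _ => sum_nonneg fun w _ => Complex.normSq_nonneg _] at h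
  have h2 := (sum_eq_zero_iff_of_nonneg fun w _ => Complex.normSq_nonneg (f v - f w)).1
    (h v (mem_univ v)) w (by simp [fib, hvw])
  exact sub_eq_zero.1 (Complex.normSq_eq_zero.1 h2)

/-- A function vanishing at all primitive roots of order `r ^ 2` is constant on classes. -/
theorem const_of_ev_eq_zero [hr : Fact r.Prime] {ω : ℂ} (hω : IsPrimitiveRoot ω (r ^ 2))
    {f : ZMod (r ^ 2) → ℂ} (h : ∀ ζ, IsPrimitiveRoot ζ (r ^ 2) → ev f ζ = 0)
    {v w : ZMod (r ^ 2)} (hvw : cls r v = cls r w) : f v = f w := by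
  have he := energy hω f
  rw [sum_eq_zero (fun j hj => by rw [h _ (pw_primitive hω (mem_filter.1 hj).2), map_zero]),
    mul_zero, mul_eq_zero] at he
  exact disp_term_eq_zero (he.resolve_left (by exact_mod_cast hr.out.ne_zero)) hvw

/-- A function on classes vanishes at primitive roots of order `r ^ 2`. -/
theorem ev_cls [hr : Fact r.Prime] {ζ : ℂ} (hζ : IsPrimitiveRoot ζ (r ^ 2))
    (g : ZMod r → ℂ) : ev (fun v => g (cls r v)) ζ = 0 := by
  have h := ev_translate hζ.pow_eq_one (fun v => g (cls r v)) (r : ZMod (r ^ 2))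
  have e : (fun v : ZMod (r ^ 2) => g (cls r (v - (r : ZMod (r ^ 2))))) =
      fun v => g (cls r v) := by
    funext v; simp
  rw [e, pw_natCast hζ.pow_eq_one] at h
  rcases mul_left_eq_self₀.1 h.symm with h' | h'
  · have := (hζ.pow_eq_one_iff_dvd r).1 h'
    exact absurd (Nat.le_of_dvd hr.out.pos this) (by
      have := hr.out.two_le
      nlinarith)
  · exact h'

theorem sq_add_one_le_four_pow (k : ℕ) : k ^ 2 + 1 ≤ 4 ^ k := by
  induction k with
  | zero => simp
  | succ k ih => rw [pow_succ 4 k]; nlinarith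

/-- A sparse function with constant modulus at all primitive roots of order `r ^ 2` is a
monomial. -/
theorem sparse_monomial [hr : Fact r.Prime] {ω : ℂ} (hω : IsPrimitiveRoot ω (r ^ 2))
    (f : ZMod (r ^ 2) → ℂ) (c : ℂ) (S : Finset (ZMod (r ^ 2))) (hS : ∀ v ∉ S, f v = 0)
    (hS' : ∀ v ∈ S, f v ≠ 0) (hk : 4 ^ S.card < r)
    (hmod : ∀ ζ, IsPrimitiveRoot ζ (r ^ 2) → ev f ζ * conj (ev f ζ) = c) : S.card ≤ 1 := by
  classical
  -- the autocorrelation vanishes off zero
  set b : ZMod (r ^ 2) → ℂ :=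
    fun d => (∑ v, f (v + d) * conj (f v)) - if d = 0 then c else 0 with hb
  have hb0 : ∀ ζ, IsPrimitiveRoot ζ (r ^ 2) → ev b ζ = 0 := by
    intro ζ hζ
    rw [hb, ev_sub, ← ev_mul_conj hζ.pow_eq_one, hmod ζ hζ]
    simp [ev, pw_zero]
  set U : Finset (ZMod (r ^ 2)) := insert 0 ((S ×ˢ S).image fun p => p.1 - p.2) with hU
  have hbU : ∀ d ∉ U, b d = 0 := by
    intro d hd
    simp only [hU, mem_insert, mem_image, mem_product, Prod.exists, not_or, not_exists,
      not_and] at hd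
    simp only [hb, if_neg hd.1, sub_zero]
    refine sum_eq_zero fun v _ => ?_
    by_cases h1 : v + d ∈ S
    · by_cases h2 : v ∈ S
      · exact absurd (by abel) (hd.2 (v + d) v ⟨h1, h2⟩)
      · rw [hS v h2, map_zero, mul_zero]
    · rw [hS _ h1, zero_mul]
  have hbz : ∀ d, b d = 0 := by
    intro d
    obtain ⟨w, hw, hwU⟩ : ∃ w ∈ fib r (cls r d), w ∉ U := by
      by_contra hcon
      simp only [not_exists, not_and, not_not] at hcon
      have h1 := card_le_card hcon
      rw [card_fib] at h1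
      have h2 : U.card ≤ S.card * S.card + 1 := by
        refine (card_insert_le _ _).trans (add_le_add ?_ le_rfl)
        exact card_image_le.trans (card_product _ _).le
      have := sq_add_one_le_four_pow S.card
      rw [pow_two] at this
      omega
    rw [const_of_ev_eq_zero hω hb0 (w := w) (mem_filter.1 hw).2.symm, hbU w hwU]
  -- a dilation puts the support in a short interval
  by_contra hcard
  have hNpos : 0 < r ^ 2 := pow_pos hr.out.pos 2
  let box : Fin r → (S → Fin 4) := fun j v =>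
    ⟨4 * ((j.val : ZMod (r ^ 2)) * v.1).val / (r ^ 2), by
      rw [Nat.div_lt_iff_lt_mul hNpos]
      have := ZMod.val_lt ((j.val : ZMod (r ^ 2)) * v.1)
      omega⟩
  obtain ⟨j, l, hjl, hbox⟩ := Fintype.exists_ne_map_eq_of_card_lt box
    (by rw [Fintype.card_fun, Fintype.card_coe, Fintype.card_fin, Fintype.card_fin]; exact hk)
  set lam : ZMod (r ^ 2) := (j.val : ZMod (r ^ 2)) - (l.val : ZMod (r ^ 2)) with hlam
  have hlam0 : cls r lam ≠ 0 := by
    rw [hlam, map_sub, map_natCast, map_natCast, sub_ne_zero]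
    intro h
    have := congrArg ZMod.val h
    rw [ZMod.val_cast_of_lt j.isLt, ZMod.val_cast_of_lt l.isLt] at this
    exact hjl (Fin.ext this)
  have hunit : IsUnit lam := by
    rw [← ZMod.natCast_zmod_val lam, ZMod.isUnit_iff_coprime]
    refine Nat.Coprime.pow_right 2 (hr.out.coprime_iff_not_dvd.2 fun h => hlam0 ?_).symm
    rw [← ZMod.natCast_zmod_val lam, map_natCast, (ZMod.natCast_eq_zero_iff _ _).2 h]
  set io : ZMod (r ^ 2) → ℤ :=
    fun v => (((j.val : ZMod (r ^ 2)) * v).val : ℤ) - (((l.val : ZMod (r ^ 2)) * v).val : ℤ)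
    with hio
  have hioc : ∀ v, ((io v : ℤ) : ZMod (r ^ 2)) = lam * v := by
    intro v
    simp only [hio, Int.cast_sub, Int.cast_natCast, ZMod.natCast_zmod_val, hlam, sub_mul]
  have hsmall : ∀ v ∈ S, -((r ^ 2 : ℕ) : ℤ) < 4 * io v ∧ 4 * io v < ((r ^ 2 : ℕ) : ℤ) := by
    intro v hv
    have hq := congrFun hbox ⟨v, hv⟩
    simp only [box, Fin.ext_iff] at hq
    have a1 := Nat.div_add_mod (4 * ((j.val : ZMod (r ^ 2)) * v).val) (r ^ 2)
    have a2 := Nat.div_add_mod (4 * ((l.val : ZMod (r ^ 2)) * v).val) (r ^ 2)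
    have a3 := Nat.mod_lt (4 * ((j.val : ZMod (r ^ 2)) * v).val) hNpos
    have a4 := Nat.mod_lt (4 * ((l.val : ZMod (r ^ 2)) * v).val) hNpos
    rw [hq] at a1
    simp only [hio]
    generalize r ^ 2 * (4 * ((l.val : ZMod (r ^ 2)) * v).val / r ^ 2) = Q at a1 a2
    have b1 := Nat.le.intro a1
    have b2 := Nat.le.intro a2
    constructor <;> omega
  have hne : S.Nonempty := card_pos.1 (by omega)
  obtain ⟨vM, hvM, hM⟩ := S.exists_max_image io hne
  obtain ⟨vm, hvm, hm⟩ := S.exists_min_image io hne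
  have hinj : ∀ v w : ZMod (r ^ 2), io v = io w → v = w := fun v w h =>
    hunit.mul_left_cancel (by rw [← hioc, ← hioc, h])
  have hd : vM - vm ≠ 0 := by
    rw [sub_ne_zero]
    intro h
    refine hcard (card_le_one.2 fun v hv w hw => hinj v w ?_)
    have := hM v hv; have := hM w hw; have := hm v hv; have := hm w hw
    rw [h] at *
    omega
  have hz := hbz (vM - vm)
  simp only [hb, if_neg hd, sub_zero] at hz
  rw [sum_eq_single vm] at hz
  · rw [add_sub_cancel, mul_eq_zero] at hz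
    rcases hz with hz | hz
    · exact hS' vM hvM hz
    · exact hS' vm hvm (by simpa using hz)
  · intro v _ hv
    by_contra hne'
    rw [mul_eq_zero, not_or] at hne'
    have h1 : v + (vM - vm) ∈ S := by_contra fun q => hne'.1 (hS _ q)
    have h2 : v ∈ S := by_contra fun q => hne'.2 (by rw [hS _ q, map_zero])
    have hcong : ((io (v + (vM - vm)) - io v - (io vM - io vm) : ℤ) : ZMod (r ^ 2)) = 0 := by
      push_cast [hioc]
      ring
    rw [ZMod.intCast_zmod_eq_zero_iff_dvd] at hcong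
    have hzero : io (v + (vM - vm)) - io v - (io vM - io vm) = 0 := by
      refine Int.eq_zero_of_abs_lt_dvd hcong ?_
      have := hsmall _ h1
      have := hsmall _ h2; have := hsmall _ hvM; have := hsmall _ hvm
      rw [abs_lt]
      constructor <;> omega
    have := hM _ h1
    have := hm v h2
    exact hv (hinj v vm (by omega))
  · simp

end Vale.Agent.P033
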