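import Vale.Agent.P033.CountTools

/-!
The exceptional sets.
-/

open Finset Real

namespace Vale.Agent.P033

theorem sum_half_pow_le (E : Finset ℕ) (k₀ : ℕ) (h : ∀ k ∈ E, k₀ ≤ k) :
    ∑ k ∈ E, (1 / 2 : ℝ) ^ k ≤ 2 * (1 / 2) ^ k₀ := by
  have key : ∀ d : ℕ, ∑ k ∈ Ico k₀ (k₀ + d), (1 / 2 : ℝ) ^ k
      = 2 * (1 / 2) ^ k₀ - 2 * (1 / 2) ^ (k₀ + d) := by
    intro d
    induction d with
    | zero => simp
    | succ d ih =>
      rw [show k₀ + (d + 1) = k₀ + d + 1 by ring, sum_Ico_succ_top (by omega), ih, pow_succ]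
      ring
  refine (sum_le_sum_of_subset_of_nonneg (fun k hk => ?_) fun _ _ _ => by positivity).trans
    ((key (E.sup id + 1)).trans_le (sub_le_self _ (by positivity)))
  have : id k ≤ E.sup id := le_sup (f := id) hk
  simp only [id_eq] at this
  exact mem_Ico.2 ⟨h k hk, by omega⟩

/-- The badly behaved primes above `(log r) ^ 8` have small mass. -/
theorem sum_bad {r : ℕ} [Fact r.Prime] (hL : 1 ≤ log (r : ℝ)) {X : ℕ} (hX : 1 ≤ X) (T : Finset ℕ)
    (hT : ∀ q ∈ T, q.Prime ∧ q ≤ X ∧ q ≠ r ∧ log (r : ℝ) ^ 8 < q ∧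
      (q : ZMod (r ^ 2)) ^ (r - 1) = 1) :
    ∑ q ∈ T, 1 / (q : ℝ) ≤ 768 / log r + 32 * (log X + 1) / Real.sqrt r := by
  classical
  set L := log (r : ℝ) with hLdef
  rw [← sum_fiberwise_of_maps_to (g := fun q => Nat.log 16 q)
    (fun q hq => mem_image_of_mem (fun q => Nat.log 16 q) hq)]
  set E := T.image fun q => Nat.log 16 q with hE
  have hblock : ∀ k ∈ E, ∑ q ∈ T.filter (fun q => Nat.log 16 q = k), 1 / (q : ℝ) ≤
      192 * L * (1 / 2) ^ k + 32 / Real.sqrt r := by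
    intro k _
    set B := T.filter fun q => Nat.log 16 q = k with hB
    have hcard := count_bad (r := r) (K := 16 ^ (k + 1))
      (le_trans (by norm_num) (Nat.le_self_pow (show k + 1 ≠ 0 by omega) 16)) B fun q hq => by
      obtain ⟨hq1, hq2⟩ := mem_filter.1 hq
      obtain ⟨h1, -, h3, -, h5⟩ := hT q hq1
      exact ⟨h1, hq2 ▸ (Nat.lt_pow_succ_log_self (by norm_num) q).le, h3, h5⟩
    have hterm : ∀ q ∈ B, 1 / (q : ℝ) ≤ 1 / (16 : ℝ) ^ k := fun q hq => by
      obtain ⟨hq1, hq2⟩ := mem_filter.1 hq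
      refine one_div_le_one_div_of_le (by positivity) ?_
      exact_mod_cast hq2 ▸ Nat.pow_log_le_self 16 (hT q hq1).1.ne_zero
    refine (sum_le_card_nsmul _ _ _ hterm).trans ?_
    rw [nsmul_eq_mul]
    refine (mul_le_mul_of_nonneg_right hcard (by positivity)).trans ?_
    have h8 : (((16 ^ (k + 1) : ℕ) : ℝ)) ^ (3 / 4 : ℝ) = (8 : ℝ) ^ (k + 1) := by
      rw [Nat.cast_pow, ← rpow_natCast, ← rpow_mul (by positivity), mul_comm,
        rpow_mul (by positivity), rpow_natCast]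
      congr 1
      rw [show ((16 : ℕ) : ℝ) = (2 : ℝ) ^ (4 : ℝ) by norm_num, ← rpow_mul (by norm_num)]
      norm_num
    rw [h8]
    have e1 : (8 : ℝ) ^ (k + 1) * (1 / 16 ^ k) = 8 * (1 / 2) ^ k := by
      rw [pow_succ, show (1 / 2 : ℝ) = 8 / 16 by norm_num, div_pow]; ring
    have e2 : (((16 ^ (k + 1) : ℕ) : ℝ)) * (1 / 16 ^ k) = 16 := by
      push_cast; rw [pow_succ]; field_simp
    calc (12 * (L + 1) * (8 : ℝ) ^ (k + 1) + 2 * ((16 ^ (k + 1) : ℕ) : ℝ) / Real.sqrt r) *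
          (1 / 16 ^ k)
        = 12 * (L + 1) * ((8 : ℝ) ^ (k + 1) * (1 / 16 ^ k)) +
          2 * (((16 ^ (k + 1) : ℕ) : ℝ) * (1 / 16 ^ k)) / Real.sqrt r := by ring
      _ ≤ _ := by
        rw [e1, e2]
        have h0 : (0 : ℝ) ≤ (1 / 2) ^ k := by positivity
        have h16 : 2 * (16 : ℝ) / Real.sqrt r = 32 / Real.sqrt r := by norm_num
        nlinarith [mul_nonneg (sub_nonneg.2 hL) h0]
  refine (sum_le_sum hblock).trans ?_
  rw [sum_add_distrib, ← mul_sum, sum_const, nsmul_eq_mul]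
  refine add_le_add ?_ ?_
  · rcases E.eq_empty_or_nonempty with hE0 | hE0
    · rw [hE0, sum_empty, mul_zero]; positivity
    refine (mul_le_mul_of_nonneg_left (sum_half_pow_le E (E.min' hE0) fun k hk => E.min'_le k hk)
      (by positivity)).trans ?_
    obtain ⟨q, hq, hqk⟩ := mem_image.1 (E.min'_mem hE0)
    obtain ⟨-, -, -, h4, -⟩ := hT q hq
    set k := E.min' hE0 with hk
    have h5 : (q : ℝ) < (16 : ℝ) ^ (k + 1) := by
      exact_mod_cast hqk ▸ Nat.lt_pow_succ_log_self (show 1 < 16 by norm_num) q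
    have h6 : L ^ 2 ≤ 2 * 2 ^ k := by
      refine le_of_pow_le_pow_left₀ (n := 4) (by norm_num) (by positivity) ?_
      calc (L ^ 2) ^ 4 = L ^ 8 := by ring
        _ ≤ (16 : ℝ) ^ (k + 1) := (h4.trans h5).le
        _ = _ := by
          rw [show (16 : ℝ) = 2 ^ 4 by norm_num, ← pow_mul, mul_comm 4, pow_mul, pow_succ]
          ring
    have h7 : (1 / 2 : ℝ) ^ k * L ^ 2 ≤ 2 := by
      calc (1 / 2 : ℝ) ^ k * L ^ 2 ≤ (1 / 2 : ℝ) ^ k * (2 * 2 ^ k) := by gcongr
        _ = 2 := by rw [one_div, inv_pow]; field_simp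
    rw [le_div_iff₀ (by linarith)]
    nlinarith
  · have hEcard : E ⊆ range (Nat.log 16 X + 1) := fun k hk => by
      obtain ⟨q, hq, rfl⟩ := mem_image.1 hk
      exact mem_range.2 (Nat.lt_succ_of_le (Nat.log_mono_right (hT q hq).2.1))
    have h1 : (E.card : ℝ) ≤ (Nat.log 16 X : ℝ) + 1 := by
      exact_mod_cast (card_le_card hEcard).trans (card_range _).le
    have h2 : ((Nat.log 16 X : ℕ) : ℝ) * log 16 ≤ log X := by
      rw [← log_pow]
      exact log_le_log (by positivity)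
        (by exact_mod_cast Nat.pow_log_le_self 16 (show X ≠ 0 by omega))
    have h3 : 1 ≤ log (16 : ℝ) := by
      rw [show (16 : ℝ) = 2 ^ 4 by norm_num, log_pow]
      have := Real.log_two_gt_d9
      push_cast
      linarith
    have h4 : (Nat.log 16 X : ℝ) ≤ log X :=
      (le_mul_of_one_le_right (Nat.cast_nonneg _) h3).trans h2
    rw [mul_comm 32 (log _ + 1), mul_div_assoc]
    exact mul_le_mul_of_nonneg_right (h1.trans (by linarith)) (by positivity)

theorem card_exists_le (X : ℕ) {ι : Type*} (R : Finset ι) (p : ℕ → ι → Prop)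
    [∀ u, DecidablePred (p u)] :
    (((Icc 1 X).filter fun u => ∃ a ∈ R, p u a).card : ℝ) ≤
      ∑ a ∈ R, (((Icc 1 X).filter fun u => p u a).card : ℝ) := by
  classical
  rw [← Nat.cast_sum, Nat.cast_le]
  refine le_trans (card_le_card fun u hu => ?_) card_biUnion_le
  obtain ⟨hu1, a, ha, hp⟩ := mem_filter.1 hu
  exact mem_biUnion.2 ⟨a, ha, mem_filter.2 ⟨hu1, hp⟩⟩

open scoped Classical in
theorem fail_sq (X : ℕ) (R : Finset ℕ) {N : ℕ} (hN : 1 ≤ N) (hR : ∀ r ∈ R, N < r) :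
    (((Icc 1 X).filter fun u => ∃ r ∈ R, r * r ∣ u).card : ℝ) ≤ X / N := by
  refine (card_exists_le X R _).trans ((sum_le_sum fun r _ => card_multiples X (r * r)).trans ?_)
  simp only [div_eq_mul_inv (X : ℝ), ← mul_sum]
  refine mul_le_mul_of_nonneg_left ?_ (Nat.cast_nonneg X)
  refine le_trans (le_of_eq (sum_congr rfl fun r _ => ?_))
    ((sum_inv_sq_gt R hN hR).trans (le_of_eq (one_div _)))
  push_cast
  ring

open scoped Classical in
theorem fail_cong (X : ℕ) (R : Finset ℕ) {N : ℕ} (hN : 1 ≤ N) (hR : ∀ r ∈ R, r.Prime ∧ N < r) :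
    (((Icc 1 X).filter fun u => ∃ r ∈ R, r ∣ u ∧ ∃ l ∈ u.primeFactors, r ∣ l - 1).card : ℝ) ≤
      X * (1 + log X) / N := by
  refine (card_exists_le X R _).trans ?_
  have hlog : 0 ≤ 1 + log (X : ℝ) := add_nonneg zero_le_one (log_natCast_nonneg X)
  have h : ∀ r ∈ R, (((Icc 1 X).filter fun u => r ∣ u ∧ ∃ l ∈ u.primeFactors, r ∣ l - 1).card : ℝ) ≤
      (X : ℝ) * (1 + log X) * (1 / (r : ℝ) ^ 2) := by
    intro r hr
    obtain ⟨hrp, -⟩ := hR r hr
    refine le_trans (Nat.cast_le.2 (card_le_card (t := (Icc 1 X).filter fun u =>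
      ∃ k ∈ Icc 1 X, r * (r * k + 1) ∣ u) fun u hu => ?_)) ?_
    · obtain ⟨hu1, hru, l, hl, k, hk⟩ := mem_filter.1 hu
      obtain ⟨hlp, hlu, -⟩ := Nat.mem_primeFactors.1 hl
      have hle : l ≤ X := (Nat.le_of_dvd (mem_Icc.1 hu1).1 hlu).trans (mem_Icc.1 hu1).2
      have h2 := hlp.two_le
      have hk1 : 1 ≤ k := Nat.pos_of_ne_zero fun h => by rw [h, mul_zero] at hk; omega
      have hkl : k ≤ r * k := Nat.le_mul_of_pos_left k hrp.pos
      refine mem_filter.2 ⟨hu1, k, mem_Icc.2 ⟨hk1, by omega⟩, ?_⟩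
      rw [show r * k + 1 = l by omega]
      refine Nat.Coprime.mul_dvd_of_dvd_of_dvd ((Nat.coprime_primes hrp hlp).2 fun h => ?_) hru hlu
      have := Nat.le_mul_of_pos_right r hk1
      omega
    · refine (card_exists_le X _ _).trans ((sum_le_sum fun k _ => card_multiples X _).trans ?_)
      refine le_trans (sum_le_sum fun k hk => ?_) (le_of_eq_of_le (mul_sum _ _
        ((X : ℝ) * (1 / (r : ℝ) ^ 2))).symm
        ((mul_le_mul_of_nonneg_left (sum_inv_le_log X) (by positivity)).trans_eq (by ring)))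
      have hk' : (1 : ℝ) ≤ k := by exact_mod_cast (mem_Icc.1 hk).1
      have hr' : (0 : ℝ) < r := Nat.cast_pos.2 hrp.pos
      have e : (X : ℝ) * (1 / (r : ℝ) ^ 2) * (1 / k) = X / (r * (r * k)) := by
        field_simp
      rw [e]
      refine div_le_div_of_nonneg_left (Nat.cast_nonneg X) (by positivity) ?_
      push_cast
      nlinarith
  refine (sum_le_sum h).trans ?_
  rw [← mul_sum, div_eq_mul_one_div _ (N : ℝ)]
  exact mul_le_mul_of_nonneg_left (sum_inv_sq_gt R hN fun r hr => (hR r hr).2)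
    (mul_nonneg (Nat.cast_nonneg X) hlog)

open scoped Classical in
theorem fail_bad {X : ℕ} (hX : 1 ≤ X) (R : Finset ℕ) {L₀ N : ℝ} (hL₀ : 1 ≤ L₀) (hN : 0 < N)
    (hR : ∀ r ∈ R, r.Prime ∧ L₀ ≤ log (r : ℝ) ∧ N ≤ r) :
    (((Icc 1 X).filter fun u => ∃ r ∈ R, r ∣ u ∧ ∃ q ∈ u.primeFactors, q ≠ r ∧
        log (r : ℝ) ^ 8 < q ∧ (q : ZMod (r ^ 2)) ^ (r - 1) = 1).card : ℝ) ≤
      X * ((768 / L₀ + 32 * (log X + 1) / Real.sqrt N) * ∑ r ∈ R, 1 / (r : ℝ)) := by
  refine (card_exists_le X R _).trans ?_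
  rw [mul_sum, mul_sum]
  refine sum_le_sum fun r hr => ?_
  obtain ⟨hrp, hL, hNr⟩ := hR r hr
  have := Fact.mk hrp
  set T := (range (X + 1)).filter fun q : ℕ => q.Prime ∧ q ≠ r ∧ log (r : ℝ) ^ 8 < q ∧
    (q : ZMod (r ^ 2)) ^ (r - 1) = 1 with hT
  refine le_trans (Nat.cast_le.2 (card_le_card (t := (Icc 1 X).filter fun u =>
    ∃ q ∈ T, r * q ∣ u) fun u hu => ?_)) ?_
  · obtain ⟨hu1, hru, q, hq, hne, hq1, hq2⟩ := mem_filter.1 hu
    obtain ⟨hqp, hqu, -⟩ := Nat.mem_primeFactors.1 hq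
    have hle : q ≤ X := (Nat.le_of_dvd (mem_Icc.1 hu1).1 hqu).trans (mem_Icc.1 hu1).2
    exact mem_filter.2 ⟨hu1, q, mem_filter.2 ⟨mem_range.2 (by omega), hqp, hne, hq1, hq2⟩,
      Nat.Coprime.mul_dvd_of_dvd_of_dvd ((Nat.coprime_primes hrp hqp).2 hne.symm) hru hqu⟩
  · refine (card_exists_le X _ _).trans ((sum_le_sum fun q _ => card_multiples X _).trans ?_)
    have hb := sum_bad (r := r) (hL₀.trans hL) hX T fun q hq => by
      obtain ⟨h1, h2, h3, h4, h5⟩ := mem_filter.1 hq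
      exact ⟨h2, by have := mem_range.1 h1; omega, h3, h4, h5⟩
    have e : ∑ q ∈ T, (X : ℝ) / ((r * q : ℕ) : ℝ) = (X : ℝ) * (1 / r) * ∑ q ∈ T, 1 / (q : ℝ) := by
      rw [mul_sum]
      refine sum_congr rfl fun q _ => ?_
      push_cast
      ring
    rw [e, show ∀ a b c : ℝ, a * (b * c) = a * c * b from fun a b c => by ring]
    refine mul_le_mul_of_nonneg_left (hb.trans (add_le_add ?_ ?_)) (by positivity)
    · exact div_le_div_of_nonneg_left (by norm_num) (by linarith) hL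
    · refine div_le_div_of_nonneg_left ?_ (Real.sqrt_pos.2 hN) (Real.sqrt_le_sqrt hNr)
      have := log_natCast_nonneg X
      linarith

open scoped Classical in
theorem fail_divisors (X : ℕ) {D : ℝ} (hD : 0 < D) :
    (((Icc 1 X).filter fun u => D < u.divisors.card).card : ℝ) ≤ X * (1 + log X) / D := by
  rw [le_div_iff₀ hD]
  have hsum : ∑ u ∈ Icc 1 X, (u.divisors.card : ℝ) ≤ X * (1 + log X) := by
    have e : ∀ u ∈ Icc 1 X, (u.divisors.card : ℝ) = ∑ d ∈ Icc 1 X, if d ∣ u then (1 : ℝ) else 0 := by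
      intro u hu
      rw [sum_boole]
      congr 2
      ext d
      obtain ⟨hu1, hu2⟩ := mem_Icc.1 hu
      simp only [Nat.mem_divisors, mem_filter, mem_Icc]
      refine ⟨fun h => ⟨⟨Nat.pos_of_dvd_of_pos h.1 hu1, (Nat.le_of_dvd hu1 h.1).trans hu2⟩, h.1⟩,
        fun h => ⟨h.2, by omega⟩⟩
    rw [sum_congr rfl e, sum_comm]
    refine (sum_le_sum fun d _ => (le_of_eq (sum_boole _ _)).trans (card_multiples X d)).trans ?_
    rw [sum_congr rfl fun (d : ℕ) _ => div_eq_mul_one_div (X : ℝ) (d : ℝ), ← mul_sum]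
    exact mul_le_mul_of_nonneg_left (sum_inv_le_log X) (Nat.cast_nonneg X)
  refine le_trans ?_ hsum
  refine le_trans ?_ (sum_le_sum_of_subset_of_nonneg
    (filter_subset (fun u => D < u.divisors.card) _) fun _ _ _ => Nat.cast_nonneg _)
  rw [← nsmul_eq_mul]
  exact card_nsmul_le_sum _ _ _ fun u hu => (mem_filter.1 hu).2.le

open scoped Classical in
theorem fail_none {X : ℕ} (R : Finset ℕ) (hR : ∀ r ∈ R, r.Prime) (hRX : R.card ≤ X)
    (hm : 0 < ∑ r ∈ R, 1 / (r : ℝ)) :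
    (((Icc 1 X).filter fun u => ∀ r ∈ R, ¬ r ∣ u).card : ℝ) ≤
      3 * X / ∑ r ∈ R, 1 / (r : ℝ) := by
  set m := ∑ r ∈ R, 1 / (r : ℝ) with hmdef
  set w : ℕ → ℝ := fun u => ∑ r ∈ R, if r ∣ u then (1 : ℝ) else 0 with hw
  have hcnt : ∀ d : ℕ, 0 < d → (X : ℝ) / d - 1 ≤ (((Icc 1 X).filter fun u => d ∣ u).card : ℝ) := by
    intro d hd
    have : ((Icc 1 X).filter fun u => d ∣ u).card = X / d := by
      rw [← Nat.Ioc_filter_dvd_card_eq_div]; rfl
    rw [this, ← Nat.floor_div_eq_div (K := ℝ)]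
    exact (Nat.sub_one_lt_floor _).le
  have h1 : (X : ℝ) * m - R.card ≤ ∑ u ∈ Icc 1 X, w u := by
    rw [hw, sum_comm, hmdef, mul_sum, show (R.card : ℝ) = ∑ _r ∈ R, (1 : ℝ) by simp,
      ← sum_sub_distrib]
    refine sum_le_sum fun r hr => ?_
    rw [sum_boole, mul_one_div]
    exact hcnt r (hR r hr).pos
  have h2 : ∑ u ∈ Icc 1 X, w u ^ 2 ≤ (X : ℝ) * (m + m * m) := by
    have e : ∀ u, w u ^ 2 = ∑ r ∈ R, ∑ q ∈ R, if r ∣ u ∧ q ∣ u then (1 : ℝ) else 0 := fun u => by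
      simp only [hw, pow_two, sum_mul_sum]
      exact sum_congr rfl fun r _ => sum_congr rfl fun q _ => by split_ifs <;> simp_all
    rw [sum_congr rfl fun u _ => e u, sum_comm]
    refine (sum_le_sum fun r hr => le_of_eq_of_le sum_comm ?_).trans_eq
      (show ∑ r ∈ R, ((X : ℝ) * (1 / r) + (X : ℝ) * (1 / r) * m) = X * (m + m * m) by
        rw [sum_add_distrib, ← mul_sum, ← sum_mul, ← mul_sum, ← hmdef]; ring)
    rw [← add_sum_erase _ _ hr]
    refine add_le_add ?_ ?_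
    · simp only [and_self]
      rw [sum_boole, mul_one_div]
      exact card_multiples X r
    · rw [hmdef, mul_sum]
      refine (sum_le_sum fun q hq => ?_).trans
        (sum_le_sum_of_subset_of_nonneg (erase_subset _ _) fun q _ _ => by positivity)
      obtain ⟨hqr, hq'⟩ := mem_erase.1 hq
      rw [sum_boole]
      refine le_trans (Nat.cast_le.2 (card_le_card (t := (Icc 1 X).filter fun u => r * q ∣ u)
        fun u hu => ?_)) ((card_multiples X (r * q)).trans_eq (by push_cast; ring))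
      obtain ⟨hu1, hu2, hu3⟩ := mem_filter.1 hu
      exact mem_filter.2 ⟨hu1, Nat.Coprime.mul_dvd_of_dvd_of_dvd
        ((Nat.coprime_primes (hR r hr) (hR q hq')).2 hqr.symm) hu2 hu3⟩
  have h3 : ∑ u ∈ Icc 1 X, (w u - m) ^ 2 ≤ 3 * X * m := by
    simp only [sub_sq, sum_add_distrib, sum_sub_distrib, ← sum_mul, ← mul_sum, sum_const,
      Nat.card_Icc, Nat.add_sub_cancel, nsmul_eq_mul]
    have : (R.card : ℝ) ≤ X := Nat.cast_le.2 hRX
    nlinarith
  have h4 : (((Icc 1 X).filter fun u => ∀ r ∈ R, ¬ r ∣ u).card : ℝ) * m ^ 2 ≤ 3 * X * m := by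
    refine le_trans ?_ ((sum_le_sum_of_subset_of_nonneg
      (filter_subset (fun u => ∀ r ∈ R, ¬ r ∣ u) _) fun _ _ _ => by positivity).trans h3)
    rw [← nsmul_eq_mul]
    refine card_nsmul_le_sum _ _ _ fun u hu => ?_
    have : w u = 0 := sum_eq_zero fun r hr => if_neg ((mem_filter.1 hu).2 r hr)
    rw [this, zero_sub, neg_sq]
  rw [le_div_iff₀ hm]
  refine le_of_mul_le_mul_right ?_ hm
  linarith [show (((Icc 1 X).filter fun u => ∀ r ∈ R, ¬ r ∣ u).card : ℝ) * m * m =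
    (((Icc 1 X).filter fun u => ∀ r ∈ R, ¬ r ∣ u).card : ℝ) * m ^ 2 by ring]

open scoped Classical in
/-- The number of windows free of prime factors of `u`. -/
noncomputable def emptyCount (W : ℕ → Finset ℕ) (I : ℕ) (u : ℕ) : ℝ :=
  ∑ i ∈ range I, if ∀ p ∈ W i, ¬ p ∣ u then (1 : ℝ) else 0

open scoped Classical in
theorem fail_windows {X : ℕ} (W : ℕ → Finset ℕ) (I : ℕ) {S : ℝ}
    (hW : ∀ i, ∀ p ∈ W i, p.Prime) (hdisj : ∀ i < I, ∀ k < I, i ≠ k → Disjoint (W i) (W k))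
    (hS : ∀ i < I, ∀ k < I, ((∏ p ∈ W i ∪ W k, p : ℕ) : ℝ) ≤ S)
    (hμ : 0 < ∑ i ∈ range I, rho (W i)) :
    (((Icc 1 X).filter fun u => emptyCount W I u ≤ (∑ i ∈ range I, rho (W i)) / 2).card : ℝ) ≤
      4 * ((X : ℝ) * ∑ i ∈ range I, rho (W i) + 3 * (I : ℝ) ^ 2 * S) /
        (∑ i ∈ range I, rho (W i)) ^ 2 := by
  set μ := ∑ i ∈ range I, rho (W i) with hμdef
  have hI : μ ≤ I := by
    refine (sum_le_card_nsmul _ _ 1 fun i _ => rho_le_one (W i) (hW i)).trans ?_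
    simp
  have hS1 : ∀ i < I, ((∏ p ∈ W i, p : ℕ) : ℝ) ≤ S := fun i hi => by
    simpa using hS i hi i hi
  have hlo : (X : ℝ) * μ - (I : ℝ) * S ≤ ∑ u ∈ Icc 1 X, emptyCount W I u := by
    simp only [emptyCount]
    rw [sum_comm, hμdef, mul_sum, show (I : ℝ) * S = ∑ _i ∈ range I, S by simp,
      ← sum_sub_distrib]
    refine sum_le_sum fun i hi => ?_
    rw [sum_boole]
    have h1 := abs_le.1 (free_count (W i) (hW i) X)
    have h2 := hS1 i (by simpa using hi)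
    linarith [h1.1]
  have hhi : ∑ u ∈ Icc 1 X, emptyCount W I u ^ 2 ≤ (X : ℝ) * (μ + μ * μ) + (I : ℝ) ^ 2 * S := by
    have e : ∀ u, emptyCount W I u ^ 2 = ∑ i ∈ range I, ∑ k ∈ range I,
        if ∀ p ∈ W i ∪ W k, ¬ p ∣ u then (1 : ℝ) else 0 := fun u => by
      simp only [emptyCount, pow_two, sum_mul_sum]
      refine sum_congr rfl fun i _ => sum_congr rfl fun k _ => ?_
      simp only [mem_union, or_imp, forall_and]
      split_ifs <;> simp_all
    rw [sum_congr rfl fun u _ => e u, sum_comm]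
    refine le_trans (sum_le_sum fun i hi => le_of_eq_of_le sum_comm (sum_le_sum fun k hk =>
      show (∑ u ∈ Icc 1 X, if ∀ p ∈ W i ∪ W k, ¬ p ∣ u then (1 : ℝ) else 0) ≤
        (X : ℝ) * ((if i = k then rho (W i) else 0) + rho (W i) * rho (W k)) + S by
      rw [sum_boole]
      have h1 := abs_le.1 (free_count (W i ∪ W k)
        (fun p hp => (mem_union.1 hp).elim (hW i p) (hW k p)) X)
      have h2 := hS i (mem_range.1 hi) k (mem_range.1 hk)
      have h3 : rho (W i ∪ W k) ≤ (if i = k then rho (W i) else 0) + rho (W i) * rho (W k) := by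
        by_cases hik : i = k
        · subst hik
          rw [union_self, if_pos rfl]
          exact le_add_of_nonneg_right (mul_self_nonneg _)
        · rw [if_neg hik, zero_add, rho, rho, rho,
            prod_union (hdisj i (mem_range.1 hi) k (mem_range.1 hk) hik)]
      nlinarith [h1.2, mul_le_mul_of_nonneg_left h3 (Nat.cast_nonneg X)])) (le_of_eq ?_)
    simp only [sum_add_distrib, ← mul_sum, sum_const, card_range, nsmul_eq_mul, ← sum_mul,
      sum_ite_eq, mem_range]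
    rw [sum_congr rfl fun i hi => if_pos (mem_range.1 hi), ← hμdef]
    ring
  have h3 : ∑ u ∈ Icc 1 X, (emptyCount W I u - μ) ^ 2 ≤ (X : ℝ) * μ + 3 * (I : ℝ) ^ 2 * S := by
    simp only [sub_sq, sum_add_distrib, sum_sub_distrib, ← sum_mul, ← mul_sum, sum_const,
      Nat.card_Icc, Nat.add_sub_cancel, nsmul_eq_mul]
    have hS0 : 0 ≤ (I : ℝ) * S := by
      rcases Nat.eq_zero_or_pos I with h | h
      · simp [h]
      · exact mul_nonneg (Nat.cast_nonneg I) ((Nat.cast_nonneg _).trans (hS 0 h 0 h))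
    nlinarith [mul_le_mul_of_nonneg_right hI hS0]
  rw [le_div_iff₀ (by positivity)]
  have h4 : (((Icc 1 X).filter fun u => emptyCount W I u ≤ μ / 2).card : ℝ) * (μ / 2) ^ 2 ≤
      (X : ℝ) * μ + 3 * (I : ℝ) ^ 2 * S := by
    refine le_trans ?_ ((sum_le_sum_of_subset_of_nonneg
      (filter_subset (fun u => emptyCount W I u ≤ μ / 2) _) fun _ _ _ => by positivity).trans h3)
    rw [← nsmul_eq_mul]
    refine card_nsmul_le_sum _ _ _ fun u hu => ?_
    have := (mem_filter.1 hu).2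
    nlinarith
  linarith [h4]

/-- The logarithm of the part of `u` made of primes up to `Z`. -/
noncomputable def smallLog (Z u : ℕ) : ℝ :=
  ∑ p ∈ (range (Z + 1)).filter Nat.Prime, (u.factorization p : ℝ) * log p

open scoped Classical in
theorem sum_smallLog {X : ℕ} (W : Finset ℕ) (hW : ∀ p ∈ W, p.Prime) (Z : ℕ) :
    ∑ u ∈ Icc 1 X, (if ∀ p ∈ W, ¬ p ∣ u then smallLog Z u else 0) ≤
      2 * (X : ℝ) * rho W * P031.mertSum Z +
        ((Z : ℝ) + 1) * Z * ((Nat.log 2 X : ℝ) + 1) * ((∏ p ∈ W, p : ℕ) : ℝ) := by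
  set L := Nat.log 2 X + 1 with hL
  have e : ∀ u ∈ Icc 1 X, (if ∀ p ∈ W, ¬ p ∣ u then smallLog Z u else 0) =
      ∑ p ∈ (range (Z + 1)).filter Nat.Prime, ∑ a ∈ Icc 1 L,
        if p ^ a ∣ u ∧ ∀ q ∈ W, ¬ q ∣ u then log (p : ℝ) else 0 := by
    intro u hu
    obtain ⟨hu1, hu2⟩ := mem_Icc.1 hu
    split_ifs with h
    · refine sum_congr rfl fun p hp => ?_
      have hpp := (mem_filter.1 hp).2
      rw [← sum_filter, sum_const, nsmul_eq_mul]
      congr 2
      have hset : (Icc 1 L).filter (fun a => p ^ a ∣ u) = Icc 1 (u.factorization p) := by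
        ext a
        simp only [mem_filter, mem_Icc]
        rw [hpp.pow_dvd_iff_le_factorization (by omega)]
        refine ⟨fun h => ⟨h.1.1, h.2⟩, fun h => ⟨⟨h.1, h.2.trans ?_⟩, h.2⟩⟩
        refine le_trans (Nat.le_log_of_pow_le one_lt_two ?_) (Nat.le_succ _)
        exact ((Nat.pow_le_pow_left hpp.two_le _).trans (Nat.ordProj_le p (by omega))).trans hu2
      rw [filter_congr fun a _ => and_iff_left h, hset, Nat.card_Icc, Nat.add_sub_cancel]
    · exact (sum_eq_zero fun p _ => sum_eq_zero fun a _ => if_neg fun hh => h hh.2).symm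
  rw [sum_congr rfl e, sum_comm, P031.mertSum, mul_sum,
    show ((Z : ℝ) + 1) * Z = ∑ _p ∈ range (Z + 1), (Z : ℝ) by simp, sum_mul, sum_mul]
  refine le_trans ?_ (add_le_add_right (sum_le_sum_of_subset_of_nonneg (filter_subset Nat.Prime _)
    fun _ _ _ => by positivity) _)
  rw [← sum_add_distrib]
  refine sum_le_sum fun p hp => ?_
  obtain ⟨hpZ, hpp⟩ := mem_filter.1 hp
  rw [sum_comm]
  set P := ((∏ p ∈ W, p : ℕ) : ℝ) with hP
  have hlp : 0 ≤ log (p : ℝ) := log_natCast_nonneg p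
  have hterm : ∀ a ∈ Icc 1 L, (∑ u ∈ Icc 1 X,
      if p ^ a ∣ u ∧ ∀ q ∈ W, ¬ q ∣ u then log (p : ℝ) else 0) ≤
        log p * ((X : ℝ) * rho W * (1 / (p : ℝ)) ^ a) + log p * P := by
    intro a _
    rw [← sum_filter, sum_const, nsmul_eq_mul, mul_comm, ← mul_add]
    refine mul_le_mul_of_nonneg_left ?_ hlp
    have hpa : 0 < p ^ a := pow_pos hpp.pos a
    refine le_trans (Nat.cast_le.2 (card_le_card_of_injOn (t := (Icc 1 (X / p ^ a)).filter
      fun v => ∀ q ∈ W, ¬ q ∣ v) (fun u => u / p ^ a) (fun u hu => ?_) ?_)) ?_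
    · obtain ⟨hu1, hu2, hu3⟩ := mem_filter.1 hu
      refine mem_filter.2 ⟨mem_Icc.2 ⟨Nat.div_pos (Nat.le_of_dvd (mem_Icc.1 hu1).1 hu2) hpa,
        Nat.div_le_div_right (mem_Icc.1 hu1).2⟩,
        fun q hq h => hu3 q hq (h.trans (Nat.div_dvd_of_dvd hu2))⟩
    · intro u hu v hv h
      rw [mem_coe, mem_filter] at hu hv
      exact (Nat.div_left_inj hu.2.1 hv.2.1).1 h
    · have h1 := (abs_le.1 (free_count W hW (X / p ^ a))).2
      have h2 : (((X / p ^ a : ℕ)) : ℝ) ≤ (X : ℝ) * (1 / (p : ℝ)) ^ a := by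
        refine Nat.cast_div_le.trans_eq ?_
        rw [Nat.cast_pow, one_div, inv_pow, div_eq_mul_inv]
      have h3 := mul_le_mul_of_nonneg_right h2 (rho_nonneg W hW)
      linarith
  refine (sum_le_sum hterm).trans ?_
  rw [sum_add_distrib, ← mul_sum, ← mul_sum, sum_const, Nat.card_Icc, Nat.add_sub_cancel,
    nsmul_eq_mul]
  have hp2 : (2 : ℝ) ≤ p := by exact_mod_cast hpp.two_le
  refine add_le_add ?_ ?_
  · have hg : ∑ a ∈ Icc 1 L, (1 / (p : ℝ)) ^ a ≤ 2 * (1 / p) := by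
      have hx : (1 / (p : ℝ)) ≤ 1 / 2 := one_div_le_one_div_of_le (by norm_num) hp2
      calc ∑ a ∈ Icc 1 L, (1 / (p : ℝ)) ^ a
          ≤ ∑ a ∈ Icc 1 L, (1 / (p : ℝ)) * (1 / 2) ^ (a - 1) := sum_le_sum fun a ha => by
            obtain ⟨b, rfl⟩ := Nat.exists_eq_add_of_le' (mem_Icc.1 ha).1
            rw [Nat.add_sub_cancel, pow_succ, mul_comm]
            gcongr
        _ ≤ (1 / (p : ℝ)) * 2 := by
            rw [← mul_sum]
            refine mul_le_mul_of_nonneg_left ?_ (by positivity)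
            have := sum_half_pow_le ((Icc 1 L).image fun a => a - 1) 0 fun _ _ => Nat.zero_le _
            rw [sum_image (fun a ha b hb h => by simp at ha hb; omega), pow_zero, mul_one] at this
            exact this
        _ = _ := mul_comm _ _
    calc log (p : ℝ) * ((X : ℝ) * rho W * ∑ a ∈ Icc 1 L, (1 / (p : ℝ)) ^ a)
        ≤ log (p : ℝ) * ((X : ℝ) * rho W * (2 * (1 / p))) := by
          gcongr
          exact mul_nonneg (Nat.cast_nonneg X) (rho_nonneg W hW)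
      _ = _ := by ring
  · have : log (p : ℝ) ≤ Z := (log_le_self (by linarith)).trans
      (by exact_mod_cast Nat.lt_succ_iff.1 (mem_range.1 hpZ))
    have hL' : (L : ℝ) = (Nat.log 2 X : ℝ) + 1 := by rw [hL]; push_cast; ring
    calc (L : ℝ) * (log (p : ℝ) * P) ≤ (L : ℝ) * ((Z : ℝ) * P) := by gcongr
      _ = _ := by rw [hL']; ring

end Vale.Agent.P033
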