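import Vale.Agent.P031.NormalMertens

/-!
Counting tools: integers free of given primes, small sums, and primes `q` with
`q ^ (r - 1)` congruent to one modulo `r ^ 2`.
-/

open Finset Real

namespace Vale.Agent.P033

theorem sum_inv_sq_gt (S : Finset ℕ) {N : ℕ} (hN : 1 ≤ N) (hS : ∀ a ∈ S, N < a) :
    ∑ a ∈ S, 1 / (a : ℝ) ^ 2 ≤ 1 / (N : ℝ) := by
  have key : ∀ d : ℕ, ∑ a ∈ Ioc N (N + d), 1 / (a : ℝ) ^ 2 ≤ 1 / (N : ℝ) - 1 / ((N + d : ℕ) : ℝ) := by
    intro d
    induction d with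
    | zero => simp
    | succ d ih =>
      rw [show N + (d + 1) = N + d + 1 by ring, sum_Ioc_succ_top (by omega)]
      have h0 : (0 : ℝ) < ((N + d : ℕ) : ℝ) := by exact_mod_cast (show 0 < N + d by omega)
      have h1 : 1 / (((N + d + 1 : ℕ) : ℝ)) ^ 2 ≤
          1 / ((N + d : ℕ) : ℝ) - 1 / ((N + d + 1 : ℕ) : ℝ) := by
        rw [Nat.cast_add_one (N + d)]
        set a := ((N + d : ℕ) : ℝ) with ha
        rw [div_sub_div _ _ h0.ne' (by positivity), one_mul, mul_one, add_sub_cancel_left,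
          div_le_div_iff₀ (by positivity) (by positivity)]
        nlinarith
      linarith
  refine (sum_le_sum_of_subset_of_nonneg (fun a ha => ?_) fun _ _ _ => by positivity).trans
    ((key (S.sup id)).trans (sub_le_self _ (by positivity)))
  have : id a ≤ S.sup id := le_sup (f := id) ha
  simp only [id_eq] at this
  exact mem_Ioc.2 ⟨hS a ha, by omega⟩

theorem sum_inv_le_log (X : ℕ) : ∑ k ∈ Icc 1 X, 1 / (k : ℝ) ≤ 1 + log X := by
  have := harmonic_le_one_add_log X
  rw [harmonic_eq_sum_Icc] at this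
  push_cast at this
  simpa [one_div] using this

theorem card_multiples (X d : ℕ) :
    (((Icc 1 X).filter fun u => d ∣ u).card : ℝ) ≤ (X : ℝ) / d := by
  have : ((Icc 1 X).filter fun u => d ∣ u).card = X / d := by
    rw [← Nat.Ioc_filter_dvd_card_eq_div]
    rfl
  rw [this]
  exact Nat.cast_div_le

theorem totient_prod_primes (S : Finset ℕ) (hS : ∀ p ∈ S, p.Prime) :
    ((∏ p ∈ S, p).totient : ℝ) = (∏ p ∈ S, p : ℕ) * ∏ p ∈ S, (1 - 1 / (p : ℝ)) := by
  classical
  induction S using Finset.induction_on with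
  | empty => simp
  | insert a S ha ih =>
    have hp := hS a (mem_insert_self _ _)
    have hcop : a.Coprime (∏ p ∈ S, p) := Nat.Coprime.prod_right fun p hp' =>
      (Nat.coprime_primes hp (hS p (mem_insert_of_mem hp'))).2 fun h => ha (h ▸ hp')
    rw [prod_insert ha, prod_insert ha, Nat.totient_mul hcop, Nat.totient_prime hp, Nat.cast_mul,
      ih fun p hp' => hS p (mem_insert_of_mem hp'), Nat.cast_sub hp.one_le, Nat.cast_mul]
    have : (a : ℝ) ≠ 0 := Nat.cast_ne_zero.2 hp.ne_zero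
    field_simp
    push_cast
    ring

/-- The density of integers with no prime factor in `S`. -/
noncomputable def rho (S : Finset ℕ) : ℝ := ∏ p ∈ S, (1 - 1 / (p : ℝ))

theorem rho_nonneg (S : Finset ℕ) (hS : ∀ p ∈ S, p.Prime) : 0 ≤ rho S :=
  prod_nonneg fun p hp => sub_nonneg.2 ((div_le_one (Nat.cast_pos.2 (hS p hp).pos)).2
    (by exact_mod_cast (hS p hp).one_le))

theorem rho_le_one (S : Finset ℕ) (hS : ∀ p ∈ S, p.Prime) : rho S ≤ 1 :=
  prod_le_one (fun p hp => sub_nonneg.2 ((div_le_one (Nat.cast_pos.2 (hS p hp).pos)).2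
    (by exact_mod_cast (hS p hp).one_le))) fun p _ => sub_le_self _ (by positivity)

theorem free_count (S : Finset ℕ) (hS : ∀ p ∈ S, p.Prime) (V : ℕ) :
    |(((Icc 1 V).filter fun u => ∀ p ∈ S, ¬ p ∣ u).card : ℝ) - V * rho S| ≤ (∏ p ∈ S, p : ℕ) := by
  classical
  set P := ∏ p ∈ S, p with hP
  have hP0 : 0 < P := prod_pos fun p hp => (hS p hp).pos
  have hiff : ∀ u, (∀ p ∈ S, ¬ p ∣ u) ↔ P.Coprime u := by
    intro u
    rw [hP, Nat.coprime_prod_left_iff]
    exact forall₂_congr fun p hp => ((hS p hp).coprime_iff_not_dvd).symm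
  have hblock : ∀ q, ((Ico 1 (1 + q * P)).filter P.Coprime).card = q * P.totient := by
    intro q
    induction q with
    | zero => simp
    | succ q ih =>
      rw [← Ico_union_Ico_eq_Ico (a := 1) (b := 1 + q * P) (by omega)
        (by rw [Nat.succ_mul]; omega), filter_union, card_union_of_disjoint
        (disjoint_filter_filter (Ico_disjoint_Ico_consecutive _ _ _)), ih,
        show 1 + (q + 1) * P = 1 + q * P + P by ring, Nat.filter_coprime_Ico_eq_totient]
      ring
  have hfil : (Icc 1 V).filter (fun u => ∀ p ∈ S, ¬ p ∣ u) =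
      (Ico 1 (1 + V)).filter P.Coprime := by
    ext u; simp only [mem_filter, mem_Icc, mem_Ico, hiff]; constructor <;> rintro ⟨h1, h2⟩ <;>
      exact ⟨by omega, h2⟩
  rw [hfil]
  set E := ((Ico 1 (1 + V)).filter P.Coprime).card with hE
  set q := V / P with hq
  have h1 := Nat.div_add_mod V P
  have h2 := Nat.mod_lt V hP0
  rw [← hq] at h1
  have hlo : q * P.totient ≤ E := by
    rw [← hblock]
    refine card_le_card (filter_subset_filter _ (Ico_subset_Ico_right ?_))
    rw [mul_comm]; omega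
  have hhi : E ≤ (q + 1) * P.totient := by
    rw [← hblock]
    refine card_le_card (filter_subset_filter _ (Ico_subset_Ico_right ?_))
    rw [Nat.succ_mul, mul_comm]; omega
  have hrho : (P.totient : ℝ) = P * rho S := totient_prod_primes S hS
  have hV : (V : ℝ) = q * P + (V % P : ℕ) := by
    rw [← Nat.cast_mul, ← Nat.cast_add]; congr 1; rw [mul_comm]; omega
  have hlo' : (q : ℝ) * P.totient ≤ E := by exact_mod_cast hlo
  have hhi' : (E : ℝ) ≤ ((q : ℝ) + 1) * P.totient := by exact_mod_cast hhi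
  have hmod : ((V % P : ℕ) : ℝ) ≤ P := by exact_mod_cast h2.le
  have hmod0 : (0 : ℝ) ≤ ((V % P : ℕ) : ℝ) := Nat.cast_nonneg _
  have hr0 := rho_nonneg S hS
  have hr1 := rho_le_one S hS
  rw [abs_le]
  constructor <;> rw [hV] <;> nlinarith

/-- The primes `q ≤ K` other than `r` with `q ^ (r - 1)` one modulo `r ^ 2` are few. -/
theorem count_bad {r : ℕ} [hr : Fact r.Prime] {K : ℕ} (hK : 2 ≤ K) (T : Finset ℕ)
    (hT : ∀ q ∈ T, q.Prime ∧ q ≤ K ∧ q ≠ r ∧ (q : ZMod (r ^ 2)) ^ (r - 1) = 1) :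
    (T.card : ℝ) ≤ 12 * (log r + 1) * (K : ℝ) ^ (3 / 4 : ℝ) + 2 * K / Real.sqrt r := by
  classical
  have hr1 : 1 < r := hr.out.one_lt
  -- products of k primes fall into the subgroup
  have hprod : ∀ k, (T.card.choose k : ℕ) ≤ (r - 1) * (K ^ k / r ^ 2 + 1) := by
    intro k
    set H : Finset (ZMod (r ^ 2)) :=
      ((univ : Finset (ZMod (r ^ 2))ˣ).filter fun a => a ^ (r - 1) = 1).image
        (fun a : (ZMod (r ^ 2))ˣ => (a : ZMod (r ^ 2))) with hH
    have hHcard : H.card ≤ r - 1 := by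
      refine card_image_le.trans ?_
      by_cases h2 : r = 2
      · subst h2
        refine card_le_one.2 fun a ha b hb => ?_
        simp only [mem_filter, mem_univ, true_and, Nat.add_one_sub_one, pow_one] at ha hb
        rw [ha, hb]
      · have := ZMod.isCyclic_units_of_prime_pow r hr.out h2 2
        exact IsCyclic.card_pow_eq_one_le (Nat.sub_pos_of_lt hr1)
    set P : Finset ℕ := (T.powersetCard k).image fun S => ∏ q ∈ S, q with hP
    have hPcard : P.card = T.card.choose k := by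
      rw [hP, card_image_of_injOn, card_powersetCard]
      intro a ha b hb hab
      have h1 : ∀ S ∈ T.powersetCard k, ∀ q ∈ S, q.Prime := fun S hS q hq =>
        (hT q ((mem_powersetCard.1 hS).1 hq)).1
      have := congrArg Nat.primeFactors hab
      rwa [Nat.primeFactors_prod (h1 a ha), Nat.primeFactors_prod (h1 b hb)] at this
    rw [← hPcard]
    have hmap : ∀ x ∈ P, (x : ZMod (r ^ 2)) ∈ H ∧ x ≤ K ^ k := by
      intro x hx
      obtain ⟨S, hS, rfl⟩ := mem_image.1 hx
      obtain ⟨hS1, hS2⟩ := mem_powersetCard.1 hS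
      refine ⟨?_, ?_⟩
      · rw [Nat.cast_prod]
        have hu : ∀ q ∈ S, IsUnit (q : ZMod (r ^ 2)) := fun q hq => by
          rw [ZMod.isUnit_iff_coprime]
          exact Nat.Coprime.pow_right 2
            ((Nat.coprime_primes (hT q (hS1 hq)).1 hr.out).2 (hT q (hS1 hq)).2.2.1)
        have hpow : (∏ q ∈ S, (q : ZMod (r ^ 2))) ^ (r - 1) = 1 := by
          rw [← prod_pow]
          exact prod_eq_one fun q hq => (hT q (hS1 hq)).2.2.2
        have hU : IsUnit (∏ q ∈ S, (q : ZMod (r ^ 2))) := IsUnit.prod_iff.2 hu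
        refine mem_image.2 ⟨hU.unit, mem_filter.2 ⟨mem_univ _, Units.ext ?_⟩, rfl⟩
        simpa using hpow
      · rw [← hS2]
        exact prod_le_pow_card _ _ _ fun q hq => (hT q (hS1 hq)).2.1
    have hfib : ∀ a ∈ P.image (fun x : ℕ => (x : ZMod (r ^ 2))),
        (P.filter fun x : ℕ => (x : ZMod (r ^ 2)) = a).card ≤ K ^ k / r ^ 2 + 1 := by
      intro a _
      calc _ ≤ (range (K ^ k / r ^ 2 + 1)).card := by
            refine card_le_card_of_injOn (fun x => x / r ^ 2)
              (fun x hx => mem_range.2 (Nat.lt_succ_of_le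
                (Nat.div_le_div_right (hmap x (mem_filter.1 hx).1).2))) ?_
            intro x hx y hy hxy
            have h1 : ((x : ℕ) : ZMod (r ^ 2)) = (y : ℕ) :=
              (mem_filter.1 hx).2.trans (mem_filter.1 hy).2.symm
            rw [ZMod.natCast_eq_natCast_iff'] at h1
            have := Nat.div_add_mod x (r ^ 2); have := Nat.div_add_mod y (r ^ 2)
            simp only at hxy
            rw [hxy, h1] at *
            omega
        _ = _ := card_range _
    refine (card_le_mul_card_image _ _ hfib).trans ?_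
    rw [mul_comm]
    exact Nat.mul_le_mul_right _
      ((card_le_card (image_subset_iff.2 fun x hx => (hmap x hx).1)).trans hHcard)
  have hL : 0 ≤ log (r : ℝ) := log_nonneg (by exact_mod_cast hr1.le)
  have hrR : (0 : ℝ) < r := Nat.cast_pos.2 hr.out.pos
  have hKR : (1 : ℝ) ≤ K := by exact_mod_cast (show 1 ≤ K by omega)
  have hK34 : (1 : ℝ) ≤ (K : ℝ) ^ (3 / 4 : ℝ) := one_le_rpow hKR (by norm_num)
  have hdiv : 0 ≤ 2 * (K : ℝ) / Real.sqrt r := by positivity
  rcases le_or_gt K r with hKr | hKr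
  · set k := Nat.log K (r ^ 2) with hk
    have h0 : r ^ 2 ≠ 0 := by positivity
    have h1 : K ^ k ≤ r ^ 2 := Nat.pow_log_le_self K h0
    have h2 : r ^ 2 < K ^ (k + 1) := Nat.lt_pow_succ_log_self hK _
    have hk2 : 2 ≤ k := Nat.le_log_of_pow_le hK (Nat.pow_le_pow_left hKr 2)
    have hch : (T.card.choose k : ℕ) ≤ 2 * r := by
      refine (hprod k).trans ?_
      have : K ^ k / r ^ 2 ≤ 1 :=
        (Nat.div_le_div_right h1).trans (Nat.div_self (Nat.pos_of_ne_zero h0)).le
      calc (r - 1) * (K ^ k / r ^ 2 + 1) ≤ r * 2 := Nat.mul_le_mul (Nat.sub_le r 1) (by omega)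
        _ = _ := mul_comm _ _
    have hkr : (k : ℝ) ≤ 4 * log r := by
      have h2k : (2 : ℝ) ^ k ≤ (r : ℝ) ^ 2 := by
        exact_mod_cast (Nat.pow_le_pow_left hK k).trans h1
      have := log_le_log (by positivity) h2k
      rw [log_pow, log_pow] at this
      have := Real.log_two_gt_d9
      push_cast at *
      nlinarith
    have hr4 : (r : ℝ) ≤ ((K : ℝ) ^ (3 / 4 : ℝ)) ^ k := by
      have h3 : r ^ 4 ≤ K ^ (3 * k) := by
        calc r ^ 4 = (r ^ 2) ^ 2 := by ring
          _ ≤ (K ^ (k + 1)) ^ 2 := Nat.pow_le_pow_left h2.le 2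
          _ = K ^ (2 * k + 2) := by ring
          _ ≤ _ := Nat.pow_le_pow_right (by omega) (by omega)
      refine le_of_pow_le_pow_left₀ (n := 4) (by norm_num) (by positivity) ?_
      rw [← pow_mul, ← rpow_natCast ((K : ℝ) ^ (3 / 4 : ℝ)), ← rpow_mul (by positivity),
        show (3 / 4 : ℝ) * ((k * 4 : ℕ) : ℝ) = ((3 * k : ℕ) : ℝ) by push_cast; ring, rpow_natCast]
      exact_mod_cast h3
    have hmain : ((T.card + 1 - k : ℕ) : ℝ) ≤ (2 * k) * (K : ℝ) ^ (3 / 4 : ℝ) := by
      refine le_of_pow_le_pow_left₀ (n := k) (by omega) (by positivity) ?_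
      rw [mul_pow]
      have h4 := Nat.pow_le_choose k T.card (α := ℝ)
      rw [div_le_iff₀ (by positivity)] at h4
      refine h4.trans ?_
      have h5 : (k.factorial : ℝ) ≤ (k : ℝ) ^ k := by exact_mod_cast Nat.factorial_le_pow k
      have h6 : ((T.card.choose k : ℕ) : ℝ) ≤ 2 * ((K : ℝ) ^ (3 / 4 : ℝ)) ^ k :=
        le_trans (by exact_mod_cast hch) (mul_le_mul_of_nonneg_left hr4 zero_le_two)
      have h7 : (2 : ℝ) ≤ 2 ^ k := le_self_pow₀ one_le_two (by omega)
      calc ((T.card.choose k : ℕ) : ℝ) * (k.factorial : ℝ)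
          ≤ (2 * ((K : ℝ) ^ (3 / 4 : ℝ)) ^ k) * (k : ℝ) ^ k :=
            mul_le_mul h6 h5 (by positivity) (by positivity)
        _ ≤ (2 ^ k * ((K : ℝ) ^ (3 / 4 : ℝ)) ^ k) * (k : ℝ) ^ k := by gcongr
        _ = _ := by rw [mul_pow]; ring
    have hT' : (T.card : ℝ) ≤ k + 2 * k * (K : ℝ) ^ (3 / 4 : ℝ) := by
      have : (T.card : ℝ) ≤ ((T.card + 1 - k : ℕ) : ℝ) + (k : ℝ) := by
        exact_mod_cast (show T.card ≤ (T.card + 1 - k) + k by omega)
      linarith
    have : (k : ℝ) * (1 + 2 * (K : ℝ) ^ (3 / 4 : ℝ)) ≤ 4 * log r * (3 * (K : ℝ) ^ (3 / 4 : ℝ)) :=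
      mul_le_mul hkr (by linarith) (by positivity) (by linarith)
    nlinarith
  · have h := hprod 2
    rw [Nat.choose_two_right] at h
    have h' : (T.card : ℝ) * ((T.card : ℝ) - 1) ≤ 2 * ((K : ℝ) ^ 2 / r + r) := by
      rcases Nat.eq_zero_or_pos T.card with h0 | h0
      · rw [h0, Nat.cast_zero, zero_mul]; positivity
      have hE : 2 ∣ T.card * (T.card - 1) := (Nat.even_mul_pred_self T.card).two_dvd
      obtain ⟨c, hc⟩ := hE
      rw [hc, Nat.mul_div_cancel_left _ two_pos] at h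
      have e : (T.card : ℝ) * ((T.card : ℝ) - 1) = 2 * (c : ℝ) := by
        have := congrArg (fun n : ℕ => (n : ℝ)) hc
        push_cast [Nat.cast_sub (show 1 ≤ T.card by omega)] at this
        linarith
      have h7 : (c : ℝ) ≤ ((r - 1 : ℕ) : ℝ) * (((K ^ 2 / r ^ 2 : ℕ) : ℝ) + 1) := by exact_mod_cast h
      have h8 : (((K ^ 2 / r ^ 2 : ℕ) : ℝ)) ≤ (K : ℝ) ^ 2 / (r : ℝ) ^ 2 :=
        le_trans Nat.cast_div_le (by push_cast; exact le_rfl)
      have h9 : ((r - 1 : ℕ) : ℝ) ≤ r := by exact_mod_cast Nat.sub_le r 1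
      have h10 : (r : ℝ) * ((K : ℝ) ^ 2 / (r : ℝ) ^ 2 + 1) = (K : ℝ) ^ 2 / r + r := by
        field_simp
      have := mul_le_mul h9 (add_le_add_right h8 (1 : ℝ)) (by positivity) hrR.le
      linarith
    set a := (K : ℝ) / Real.sqrt r with ha
    have hsr : 0 < Real.sqrt r := Real.sqrt_pos.2 hrR
    have hb1 : Real.sqrt r ≤ (K : ℝ) ^ (3 / 4 : ℝ) := by
      rw [Real.sqrt_eq_rpow]
      calc (r : ℝ) ^ (1 / 2 : ℝ) ≤ (K : ℝ) ^ (1 / 2 : ℝ) :=
            rpow_le_rpow hrR.le (by exact_mod_cast hKr.le) (by norm_num)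
        _ ≤ _ := rpow_le_rpow_of_exponent_le hKR (by norm_num)
    set b := Real.sqrt r with hb
    have hrb : (r : ℝ) = b ^ 2 := (Real.sq_sqrt hrR.le).symm
    have hKa : (K : ℝ) ^ 2 / r = a ^ 2 := by rw [ha, div_pow, ← hrb]
    rw [hKa, hrb] at h'
    have ha0 : 0 ≤ a := by positivity
    have h2a : 2 * (K : ℝ) / b = 2 * a := by rw [ha]; ring
    rw [h2a]
    have h11 : (T.card : ℝ) ≤ 1 + 2 * a + 2 * b := by
      by_contra hcon
      push Not at hcon
      nlinarith
    nlinarith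

end Vale.Agent.P033
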