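import Vale.Agent.P033.Basic

/-!
The quotient of a conjugate cyclotomic integer by a fixed divisor is a cyclotomic integer.
-/

open Finset Polynomial NumberField

namespace Vale.Agent.P033

/-- An integral combination of monomials in two roots. -/
noncomputable def evs {R : Type*} [CommRing R] {ι : Type*} (T : Finset ι) (c : ι → ℤ) (i j : ι → ℕ)
    (x y : R) : R := ∑ k ∈ T, (c k : R) * x ^ i k * y ^ j k

theorem evs_mul {R : Type*} [CommRing R] {ι κ : Type*} (T : Finset ι) (U : Finset κ) (c : ι → ℤ)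
    (i j : ι → ℕ) (d : κ → ℤ) (k l : κ → ℕ) (x y : R) :
    evs T c i j x y * evs U d k l x y =
      evs (T ×ˢ U) (fun p => c p.1 * d p.2) (fun p => i p.1 + k p.2) (fun p => j p.1 + l p.2)
        x y := by
  simp only [evs, sum_mul_sum, sum_product, pow_add, Int.cast_mul]
  exact sum_congr rfl fun a _ => sum_congr rfl fun b _ => by ring

theorem evs_const {R : Type*} [CommRing R] (n : ℤ) (x y : R) :
    (n : R) = evs ({()} : Finset Unit) (fun _ => n) (fun _ => 0) (fun _ => 0) x y := by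
  simp [evs]

theorem map_evs {R S : Type*} [CommRing R] [CommRing S] (φ : R →+* S) {ι : Type*} (T : Finset ι)
    (c : ι → ℤ) (i j : ι → ℕ) (x y : R) : φ (evs T c i j x y) = evs T c i j (φ x) (φ y) := by
  simp [evs]

theorem evs_pow {R : Type*} [CommRing R] {ι : Type*} (T : Finset ι) (c : ι → ℤ) (i j : ι → ℕ)
    (x y : R) (a b : ℕ) :
    evs T c i j (x ^ a) (y ^ b) = evs T c (fun k => a * i k) (fun k => b * j k) x y := by
  simp [evs, ← pow_mul]

/-- Equalities between integral combinations transfer between primitive roots. -/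
theorem transfer_eq {K L : Type*} [Field K] [CharZero K] [Field L] [CharZero L] {a b : ℕ}
    (hab : a.Coprime b) (ha : 0 < a) (hb : 0 < b) {x₁ y₁ : K} (hx₁ : IsPrimitiveRoot x₁ a)
    (hy₁ : IsPrimitiveRoot y₁ b) {x₂ y₂ : L} (hx₂ : IsPrimitiveRoot x₂ a)
    (hy₂ : IsPrimitiveRoot y₂ b) {ι κ : Type*} {T : Finset ι} {U : Finset κ} {c : ι → ℤ}
    {i j : ι → ℕ} {d : κ → ℤ} {k l : κ → ℕ}
    (h : evs T c i j x₁ y₁ = evs U d k l x₁ y₁) : evs T c i j x₂ y₂ = evs U d k l x₂ y₂ := by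
  have := transfer hab ha hb hx₁ hy₁ hx₂ hy₂ (T.disjSum U) (Sum.elim c fun q => -d q)
    (Sum.elim i k) (Sum.elim j l) (by
      simp only [sum_disjSum, Sum.elim_inl, Sum.elim_inr, Int.cast_neg, neg_mul, sum_neg_distrib]
      simp only [evs] at h
      rw [h, add_neg_cancel])
  simp only [sum_disjSum, Sum.elim_inl, Sum.elim_inr, Int.cast_neg, neg_mul, sum_neg_distrib]
    at this
  exact add_neg_eq_zero.1 this

theorem eq_of_pow_prime_pow {R : Type*} [CommRing R] [IsDomain R] {p : ℕ} [Fact p.Prime]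
    [CharP R p] {a b : R} {k : ℕ} (h : a ^ p ^ k = b ^ p ^ k) : a = b :=
  iterateFrobenius_inj R p k (by simpa [iterateFrobenius_def] using h)

/-- A conjugate times the complex conjugate is divisible by every divisor of the squared modulus
whose primes have their ideals fixed by the conjugation. -/
theorem delta_exists {r e : ℕ} (hr : r.Prime) (he : 0 < e) (hcop : (r ^ 2).Coprime e)
    {ι : Type*} (T : Finset ι) (c : ι → ℤ) (i j : ι → ℕ) (M U : ℕ) (hM : M ≠ 0) (hMU : M ∣ U)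
    (hU : ∀ ζ ξ : ℂ, IsPrimitiveRoot ζ (r ^ 2) → IsPrimitiveRoot ξ e →
      evs T c i j ζ ξ * evs T c i j (ζ ^ (r ^ 2 - 1)) (ξ ^ (e - 1)) = (U : ℂ))
    (hfix : ∀ p : ℕ, p.Prime → p ∣ M → ∃ L k N' : ℕ, r ^ 2 * e = p ^ k * N' ∧
      ∀ t : ℕ, t ≡ 1 + r [MOD r ^ 2] → t ≡ 1 [MOD e] → t ≡ p ^ L [MOD N']) :
    ∃ F : ZMod (r ^ 2) × ℕ → ℤ, ∃ W : Finset (ZMod (r ^ 2) × ℕ),
      ∀ ζ ξ : ℂ, IsPrimitiveRoot ζ (r ^ 2) → IsPrimitiveRoot ξ e →
        (M : ℂ) * evs W F (fun q => q.1.val) (fun q => q.2) ζ ξ =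
          evs T c i j (ζ ^ (1 + r)) ξ * evs T c i j (ζ ^ (r ^ 2 - 1)) (ξ ^ (e - 1)) := by
  classical
  have ha : 0 < r ^ 2 := pow_pos hr.pos 2
  have : NeZero (r ^ 2) := ⟨ha.ne'⟩
  set N := r ^ 2 * e with hN
  have : NeZero N := ⟨(Nat.mul_pos ha he).ne'⟩
  let K := CyclotomicField N ℚ
  have hcyc : IsCyclotomicExtension {N} ℚ K := CyclotomicField.isCyclotomicExtension N ℚ
  have : NumberField K := IsCyclotomicExtension.numberField {N} ℚ K
  obtain ⟨Z₀, hZ₀⟩ : ∃ Z : K, IsPrimitiveRoot Z N := ⟨_, IsCyclotomicExtension.zeta_spec N ℚ K⟩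
  obtain ⟨x, hx⟩ : ∃ x : K, IsPrimitiveRoot x (r ^ 2) :=
    ⟨Z₀ ^ e, hZ₀.pow (NeZero.pos N) (mul_comm _ _)⟩
  obtain ⟨y, hy⟩ : ∃ y : K, IsPrimitiveRoot y e := ⟨Z₀ ^ (r ^ 2), hZ₀.pow (NeZero.pos N) rfl⟩
  have : NeZero e := ⟨he.ne'⟩
  obtain ⟨α, hα⟩ : ∃ α : ℕ, ((α * e : ℕ) : ZMod (r ^ 2)) = 1 := by
    refine ⟨((e : ZMod (r ^ 2))⁻¹).val, ?_⟩
    rw [Nat.cast_mul, ZMod.natCast_val, ZMod.cast_id, mul_comm]
    exact ZMod.coe_mul_inv_eq_one e hcop.symm
  obtain ⟨β, hβ⟩ : ∃ β : ℕ, ((β * r ^ 2 : ℕ) : ZMod e) = 1 := by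
    refine ⟨(((r ^ 2 : ℕ) : ZMod e)⁻¹).val, ?_⟩
    rw [Nat.cast_mul, ZMod.natCast_val, ZMod.cast_id, mul_comm]
    exact ZMod.coe_mul_inv_eq_one (r ^ 2) hcop
  obtain ⟨hZ, hZe, hZr⟩ := root_pair hcop ha he hα hβ hx hy
  set Z := x ^ α * y ^ β with hZdef
  -- the automorphism
  obtain ⟨t, ht1, ht2⟩ := Nat.chineseRemainder hcop (1 + r) 1
  have htN : t.Coprime N := by
    refine Nat.Coprime.mul_right (Nat.Coprime.pow_right 2 ?_) ?_
    · refine (hr.coprime_iff_not_dvd.2 fun h => ?_).symm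
      have h1 := (Nat.ModEq.of_dvd (dvd_pow_self r two_ne_zero) ht1)
      have h2 : r ∣ 1 + r := (h1.dvd_iff dvd_rfl).1 h
      exact hr.one_lt.ne' (Nat.dvd_one.1 ((Nat.dvd_add_left dvd_rfl).1 h2))
    · rw [Nat.coprime_iff_gcd_eq_one, ht2.gcd_eq, Nat.gcd_one_left]
  have hμ : IsPrimitiveRoot (Z ^ t) N := hZ.pow_of_coprime t htN
  let σ : K ≃ₐ[ℚ] K := (hZ.powerBasis ℚ).equivOfMinpoly (hμ.powerBasis ℚ) (by
    rw [hZ.powerBasis_gen ℚ, hμ.powerBasis_gen ℚ, ← cyclotomic_eq_minpoly_rat hZ (NeZero.pos N),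
      ← cyclotomic_eq_minpoly_rat hμ (NeZero.pos N)])
  have hσZ : σ Z = Z ^ t := by
    have := (hZ.powerBasis ℚ).equivOfMinpoly_gen (hμ.powerBasis ℚ) (by
      rw [hZ.powerBasis_gen ℚ, hμ.powerBasis_gen ℚ, ← cyclotomic_eq_minpoly_rat hZ (NeZero.pos N),
        ← cyclotomic_eq_minpoly_rat hμ (NeZero.pos N)])
    simpa only [hZ.powerBasis_gen ℚ, hμ.powerBasis_gen ℚ] using this
  have hσx : σ x = x ^ (1 + r) := by
    rw [← hZe, map_pow, hσZ, ← pow_mul, ← pow_mul, mul_comm t e, pow_mul, pow_mul, hZe]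
    rw [pow_eq_pow_mod t hx.pow_eq_one, pow_eq_pow_mod (1 + r) hx.pow_eq_one, ht1]
  have hσy : σ y = y := by
    rw [← hZr, map_pow, hσZ, ← pow_mul, mul_comm t, pow_mul, hZr, pow_eq_pow_mod t hy.pow_eq_one,
      ht2, ← pow_eq_pow_mod 1 hy.pow_eq_one, pow_one]
  -- the integral ring
  let Zi : 𝓞 K := hZ.toInteger
  have hZi : algebraMap (𝓞 K) K Zi = Z := rfl
  let σR : 𝓞 K →+* 𝓞 K := RingOfIntegers.mapRingHom (σ : K →+* K)
  have hσR : ∀ z : 𝓞 K, algebraMap (𝓞 K) K (σR z) = σ (algebraMap (𝓞 K) K z) := fun z => rfl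
  obtain ⟨xi, hxi⟩ : ∃ v : 𝓞 K, algebraMap (𝓞 K) K v = x :=
    ⟨Zi ^ e, by rw [map_pow, hZi, hZe]⟩
  obtain ⟨yi, hyi⟩ : ∃ v : 𝓞 K, algebraMap (𝓞 K) K v = y :=
    ⟨Zi ^ (r ^ 2), by rw [map_pow, hZi, hZr]⟩
  set av := evs T c i j xi yi with hav
  set bv := evs T c i j (xi ^ (r ^ 2 - 1)) (yi ^ (e - 1)) with hbv
  have hζ := Complex.isPrimitiveRoot_exp (r ^ 2) ha.ne'
  have hξ := Complex.isPrimitiveRoot_exp e he.ne'
  have hab : av * bv = (U : 𝓞 K) := by
    apply RingOfIntegers.coe_injective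
    rw [map_mul, hav, hbv, map_evs, map_evs, map_pow, map_pow, hxi, hyi, evs_pow, evs_mul,
      map_natCast, show ((U : ℕ) : K) = ((U : ℤ) : K) by simp, evs_const (U : ℤ) x y]
    refine transfer_eq hcop ha he hζ hξ hx hy ?_
    rw [← evs_mul T T c i j c (fun k => (r ^ 2 - 1) * i k) (fun k => (e - 1) * j k), ← evs_pow,
      hU _ _ hζ hξ, ← evs_const]
    simp
  -- the primes over the divisor are fixed
  have hfixP : ∀ P : Ideal (𝓞 K), P.IsPrime → (M : 𝓞 K) ∈ P → Ideal.map σR P ≤ P := by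
    intro P hP hMP
    obtain ⟨q, hq⟩ := CharP.exists (𝓞 K ⧸ P)
    have hq0 : q ∣ M := by
      rw [← CharP.cast_eq_zero_iff (𝓞 K ⧸ P) q, ← map_natCast (Ideal.Quotient.mk P)]
      exact Ideal.Quotient.eq_zero_iff_mem.2 hMP
    have hqp : q.Prime := (CharP.char_is_prime_or_zero (𝓞 K ⧸ P) q).resolve_right
      (fun h => hM (Nat.eq_zero_of_zero_dvd (h ▸ hq0)))
    have := Fact.mk hqp
    obtain ⟨L, k, N', hNk, hL⟩ := hfix q hqp hq0
    have hN' : Zi ^ (q ^ k * N') = 1 := by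
      rw [← hNk]
      exact RingOfIntegers.coe_injective (by rw [map_pow, hZi, hZ.pow_eq_one, map_one])
    have hgen : Ideal.Quotient.mk P (Zi ^ t) = Ideal.Quotient.mk P Zi ^ q ^ L := by
      rw [map_pow]
      refine eq_of_pow_prime_pow (p := q) (k := k) ?_
      rw [← pow_mul, ← pow_mul, mul_comm t, mul_comm (q ^ L), pow_mul, pow_mul]
      have h1 : (Ideal.Quotient.mk P Zi ^ q ^ k) ^ N' = 1 := by
        rw [← pow_mul, ← map_pow, hN', map_one]
      rw [pow_eq_pow_mod t h1, hL t ht1 ht2, ← pow_eq_pow_mod _ h1]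
    have hall : ∀ z, Ideal.Quotient.mk P (σR z) = Ideal.Quotient.mk P z ^ q ^ L := by
      let f₁ : 𝓞 K →+* 𝓞 K ⧸ P := (Ideal.Quotient.mk P).comp σR
      let f₂ : 𝓞 K →+* 𝓞 K ⧸ P := (iterateFrobenius (𝓞 K ⧸ P) q L).comp (Ideal.Quotient.mk P)
      have hsame : f₁.toIntAlgHom = f₂.toIntAlgHom := by
        refine AlgHom.ext_of_adjoin_eq_top (IsCyclotomicExtension.Rat.adjoin_singleton_eq_top hZ) ?_
        intro z hz
        rw [Set.mem_singleton_iff] at hz
        subst hz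
        change Ideal.Quotient.mk P (σR Zi) = iterateFrobenius _ q L (Ideal.Quotient.mk P Zi)
        rw [iterateFrobenius_def, ← hgen]
        congr 1
        exact RingOfIntegers.coe_injective (by rw [hσR, map_pow, hZi, hσZ])
      intro z
      have := AlgHom.congr_fun hsame z
      simpa [f₁, f₂, iterateFrobenius_def] using this
    refine Ideal.map_le_iff_le_comap.2 fun z hz => ?_
    rw [Ideal.mem_comap, ← Ideal.Quotient.eq_zero_iff_mem, hall,
      Ideal.Quotient.eq_zero_iff_mem.2 hz, zero_pow (pow_ne_zero _ hqp.ne_zero)]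
  -- hence the product is divisible
  obtain ⟨δ, hδ⟩ : (M : 𝓞 K) ∣ σR av * bv := by
    set I : Ideal (𝓞 K) := Ideal.span {av, (M : 𝓞 K)} with hI
    have hI0 : I ≠ ⊥ := by
      intro h
      have hm : (M : 𝓞 K) ∈ I := Ideal.subset_span (by simp)
      rw [h, Ideal.mem_bot, Nat.cast_eq_zero] at hm
      exact hM hm
    have hfac := Ideal.prod_normalizedFactors_eq_self hI0
    have hmap : Ideal.map σR I ≤ I := by
      rw [← hfac, ← Ideal.mapHom_apply, map_multiset_prod]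
      have : ∀ s : Multiset (Ideal (𝓞 K)), (∀ P ∈ s, Ideal.map σR P ≤ P) →
          (s.map (Ideal.mapHom σR)).prod ≤ s.prod := by
        intro s
        induction s using Multiset.induction with
        | empty => simp
        | cons a s ih =>
          intro h
          rw [Multiset.map_cons, Multiset.prod_cons, Multiset.prod_cons, Ideal.mapHom_apply]
          exact Ideal.mul_mono (h a (Multiset.mem_cons_self _ _))
            (ih fun P hP => h P (Multiset.mem_cons_of_mem hP))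
      refine this _ fun P hP => ?_
      have hPp := UniqueFactorizationMonoid.prime_of_normalized_factor P hP
      refine hfixP P (Ideal.isPrime_of_prime hPp) ?_
      exact Ideal.le_of_dvd (UniqueFactorizationMonoid.dvd_of_mem_normalizedFactors hP)
        (Ideal.subset_span (by simp))
    obtain ⟨s, q, hsq⟩ := Ideal.mem_span_pair.1
      (hmap (Ideal.mem_map_of_mem σR (Ideal.subset_span (by simp) : av ∈ I)))
    obtain ⟨V, hV⟩ := hMU
    refine ⟨s * V + q * bv, ?_⟩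
    rw [← hsq, add_mul, mul_assoc s, hab, hV, Nat.cast_mul]
    ring
  obtain ⟨P, hP⟩ : ∃ P : ℤ[X], aeval Zi P = δ := by
    have h : δ ∈ Algebra.adjoin ℤ {Zi} := by
      rw [IsCyclotomicExtension.Rat.adjoin_singleton_eq_top hZ]; exact Algebra.mem_top
    rwa [Algebra.adjoin_singleton_eq_range_aeval] at h
  -- collect the representation
  let ψ : ℕ → ZMod (r ^ 2) × ℕ := fun l => (((α * l : ℕ) : ZMod (r ^ 2)), β * l)
  let F : ZMod (r ^ 2) × ℕ → ℤ :=
    fun q => ∑ l ∈ (range (P.natDegree + 1)).filter (fun l => ψ l = q), P.coeff l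
  refine ⟨F, (range (P.natDegree + 1)).image ψ, fun ζ ξ hζ' hξ' => ?_⟩
  have hF : ∀ {R : Type} [CommRing R] (x' y' : R), x' ^ (r ^ 2) = 1 →
      evs ((range (P.natDegree + 1)).image ψ) F (fun q => q.1.val) (fun q => q.2) x' y' =
        ∑ l ∈ range (P.natDegree + 1), (P.coeff l : R) * (x' ^ α * y' ^ β) ^ l := by
    intro R _ x' y' h1
    rw [← sum_fiberwise_of_maps_to (g := ψ) (fun l hl => mem_image_of_mem ψ hl)]
    refine sum_congr rfl fun q _ => ?_
    simp only [F, Int.cast_sum, sum_mul]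
    refine sum_congr rfl fun l hl => ?_
    obtain ⟨_, rfl⟩ := mem_filter.1 hl
    simp only [ψ, ZMod.val_natCast, ← pow_eq_pow_mod _ h1, mul_pow, ← pow_mul]
    ring
  have hK : evs ({()} : Finset Unit) (fun _ => (M : ℤ)) (fun _ => 0) (fun _ => 0) x y *
      evs ((range (P.natDegree + 1)).image ψ) F (fun q => q.1.val) (fun q => q.2) x y =
      evs T c i j (x ^ (1 + r)) (y ^ 1) * evs T c i j (x ^ (r ^ 2 - 1)) (y ^ (e - 1)) := by
    rw [← evs_const, hF x y hx.pow_eq_one]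
    have := congrArg (algebraMap (𝓞 K) K) hδ
    rw [map_mul, map_mul, hσR, hav, hbv, map_evs, map_evs, map_pow, map_pow, hxi, hyi,
      map_natCast, ← hP] at this
    rw [show σ (evs T c i j x y) = evs T c i j (σ x) (σ y) from
      map_evs (σ : K →+* K) _ _ _ _ _ _, hσx, hσy] at this
    rw [pow_one, this, Int.cast_natCast]
    congr 1
    rw [aeval_eq_sum_range, map_sum]
    refine sum_congr rfl fun l _ => ?_
    rw [zsmul_eq_mul, map_mul, map_intCast, map_pow, hZi]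
  rw [evs_pow, evs_pow, evs_mul, evs_mul] at hK
  have := transfer_eq hcop ha he hx hy hζ' hξ' hK
  rw [← evs_mul ({()} : Finset Unit) _ (fun _ => (M : ℤ)) (fun _ => 0) (fun _ => 0) F
      (fun q => q.1.val) (fun q => q.2),
    ← evs_mul T T c (fun k => (1 + r) * i k) (fun k => 1 * j k) c
      (fun k => (r ^ 2 - 1) * i k) (fun k => (e - 1) * j k),
    ← evs_pow, ← evs_pow, ← evs_const, pow_one] at this
  simpa using this

end Vale.Agent.P033
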