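import Vale.Agent.P033.Range

/-!
The exceptions coming from the windows of small primes.
-/

open Finset Real

namespace Vale.Agent.P033

/-- The primes in `(Z, Z ^ M]`. -/
noncomputable def window (Z M : ℕ) : Finset ℕ :=
  (range (Z ^ M + 1)).filter fun p => p.Prime ∧ Z < p

theorem mem_window {Z M p : ℕ} : p ∈ window Z M ↔ p.Prime ∧ Z < p ∧ p ≤ Z ^ M := by
  simp only [window, mem_filter, mem_range, Nat.lt_succ_iff]; tauto

theorem window_prime {Z M : ℕ} : ∀ p ∈ window Z M, p.Prime := fun _ hp => (mem_window.1 hp).1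

open scoped Classical in
/-- The number of empty windows weighted by their small parts. -/
noncomputable def smallWeight (W : ℕ → Finset ℕ) (Zi : ℕ → ℕ) (I κ u : ℕ) : ℝ :=
  ∑ i ∈ range I,
    (if ∀ p ∈ W i, ¬ p ∣ u then smallLog (Zi i) u else 0) / ((κ : ℝ) * log (Zi i : ℝ))

open scoped Classical in
theorem windows_small {δ A S : ℝ} (hδ0 : 0 < δ) (hA : ∀ N : ℕ, 1 ≤ N → |P031.mertSum N - log N| ≤ A)
    {I κ X y : ℕ} (hκ1 : 1 ≤ κ) (hκle : 4 * (2 * (1 + |A|)) / δ ≤ (κ : ℝ))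
    (Zi : ℕ → ℕ) (W : ℕ → Finset ℕ) (hWp : ∀ i, ∀ p ∈ W i, p.Prime)
    (hWd : ∀ i < I, ∀ k < I, i ≠ k → Disjoint (W i) (W k))
    (hWS : ∀ i < I, ∀ k < I, ((∏ p ∈ W i ∪ W k, p : ℕ) : ℝ) ≤ S)
    (hlogZ : ∀ i < I, 1 ≤ log (Zi i : ℝ)) (hZiy : ∀ i < I, Zi i ≤ y)
    (hX1 : 1 ≤ X) (hy1 : 1 ≤ y) (hlogX : 1 + log (X : ℝ) ≤ 7 * (y : ℝ))
    (hS1 : 1 ≤ S) (hSX : S * S ≤ X)
    (hy3 : (12 * (I : ℝ) ^ 2 / δ + 400 * I / δ + 1) * (y : ℝ) ^ 3 ≤ S)
    (hμlo : 16 / δ + 1 ≤ ∑ i ∈ range I, rho (W i)) :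
    (((Icc 1 X).filter fun u => emptyCount W I u ≤ (∑ i ∈ range I, rho (W i)) / 2).card : ℝ)
        ≤ δ * X ∧
    (((Icc 1 X).filter fun u => (∑ i ∈ range I, rho (W i)) / 2 ≤ smallWeight W Zi I κ u).card : ℝ)
        ≤ δ * X := by
  set cA := 2 * (1 + |A|) with hcA
  have hcA0 : 0 < cA := by positivity
  set U := Icc 1 X with hU
  set μ := ∑ i ∈ range I, rho (W i) with hμ
  have hμ1 : 1 ≤ μ := by
    have : 0 ≤ 16 / δ := by positivity
    linarith
  have hyR1 : (1 : ℝ) ≤ y := by exact_mod_cast hy1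
  have hy31 : (1 : ℝ) ≤ (y : ℝ) ^ 3 := one_le_pow₀ (by linarith)
  have hSsplit : 12 * (I : ℝ) ^ 2 / δ * S ≤ X ∧ 400 * (I : ℝ) / δ * (y : ℝ) ^ 3 * S ≤ X := by
    have a1 : 12 * (I : ℝ) ^ 2 / δ ≤ S := by
      refine le_trans ?_ hy3
      refine le_trans ?_ (le_mul_of_one_le_right (by positivity) hy31)
      have : 0 ≤ 400 * (I : ℝ) / δ := by positivity
      linarith
    have a2 : 400 * (I : ℝ) / δ * (y : ℝ) ^ 3 ≤ S := by
      refine le_trans (mul_le_mul_of_nonneg_right ?_ (by positivity)) hy3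
      have : 0 ≤ 12 * (I : ℝ) ^ 2 / δ := by positivity
      linarith
    exact ⟨(mul_le_mul_of_nonneg_right a1 (by linarith)).trans hSX,
      (mul_le_mul_of_nonneg_right a2 (by linarith)).trans hSX⟩
  have hB5 : ((U.filter fun u => emptyCount W I u ≤ μ / 2).card : ℝ) ≤ δ * X := by
    refine (fail_windows W I hWp hWd hWS (by linarith)).trans ?_
    rw [← hμ, div_le_iff₀ (by positivity)]
    obtain ⟨h1, -⟩ := hSsplit
    rw [div_mul_eq_mul_div, div_le_iff₀ hδ0] at h1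
    have h2 : 16 + δ ≤ δ * μ := by
      have := mul_le_mul_of_nonneg_left hμlo hδ0.le
      rwa [mul_add, mul_one, mul_div_cancel₀ _ hδ0.ne'] at this
    have hX0 : (0 : ℝ) ≤ X := Nat.cast_nonneg X
    have h3 : (16 + δ) * ((X : ℝ) * μ) ≤ δ * μ * ((X : ℝ) * μ) :=
      mul_le_mul_of_nonneg_right h2 (by positivity)
    have h4 : 0 ≤ (X : ℝ) * μ - X := by
      have := mul_le_mul_of_nonneg_left hμ1 hX0
      linarith
    nlinarith
  -- windows with a large small part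
  set B : ℕ → ℝ := smallWeight W Zi I κ with hB
  have hκ0 : (0 : ℝ) < κ := Nat.cast_pos.2 (by omega)
  have hsmall0 : ∀ Z u, 0 ≤ smallLog Z u := fun Z u =>
    sum_nonneg fun p _ => mul_nonneg (Nat.cast_nonneg _) (log_natCast_nonneg p)
  have hterm0 : ∀ u, ∀ i ∈ range I, 0 ≤ (if ∀ p ∈ W i, ¬ p ∣ u then smallLog (Zi i) u else 0) /
      ((κ : ℝ) * log (Zi i : ℝ)) := fun u i hi =>
    div_nonneg (by split_ifs <;> first | exact hsmall0 _ _ | exact le_rfl)
      (mul_nonneg hκ0.le (by linarith [hlogZ i (mem_range.1 hi)]))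
  have hBsum : ∑ u ∈ U, B u ≤ (X : ℝ) * μ * (cA / κ) + (I : ℝ) * (100 * (y : ℝ) ^ 3 * S) := by
    simp only [hB, smallWeight]
    rw [sum_comm, hμ, mul_sum, sum_mul,
      show (I : ℝ) * (100 * (y : ℝ) ^ 3 * S) = ∑ _i ∈ range I, 100 * (y : ℝ) ^ 3 * S by simp,
      ← sum_add_distrib]
    refine sum_le_sum fun i hi => ?_
    rw [← sum_div]
    have hlZ : 1 ≤ log (Zi i : ℝ) := hlogZ i (mem_range.1 hi)
    have hden : 1 ≤ (κ : ℝ) * log (Zi i : ℝ) :=
      one_le_mul_of_one_le_of_one_le (by exact_mod_cast (show 1 ≤ κ by omega)) hlZ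
    rw [div_le_iff₀ (by positivity)]
    refine (sum_smallLog (W i) (hWp i) (Zi i)).trans ?_
    have hmert : P031.mertSum (Zi i) ≤ (1 + |A|) * log (Zi i : ℝ) := by
      have := (abs_le.1 (hA (Zi i) (Nat.pos_of_ne_zero fun h => by rw [h, Nat.cast_zero, log_zero] at hlZ; linarith))).2
      nlinarith [le_abs_self A, abs_nonneg A]
    have hP : ((∏ p ∈ W i, p : ℕ) : ℝ) ≤ S := by
      simpa using hWS i (mem_range.1 hi) i (mem_range.1 hi)
    have hZy : (Zi i : ℝ) ≤ y := by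
      exact_mod_cast hZiy i (mem_range.1 hi)
    have hL : (Nat.log 2 X : ℝ) + 1 ≤ 15 * (y : ℝ) := by
      have h1 : ((Nat.log 2 X : ℕ) : ℝ) * log 2 ≤ log (X : ℝ) := by
        rw [← log_pow]
        exact log_le_log (by positivity)
          (by exact_mod_cast Nat.pow_log_le_self 2 (show X ≠ 0 by omega))
      have := Real.log_two_gt_d9
      nlinarith
    have hjunk : ((Zi i : ℝ) + 1) * Zi i * ((Nat.log 2 X : ℝ) + 1) * ((∏ p ∈ W i, p : ℕ) : ℝ) ≤
        100 * (y : ℝ) ^ 3 * S := by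
      calc _ ≤ (2 * (y : ℝ)) * y * (15 * y) * S := by
            gcongr
            linarith
        _ = 30 * (y : ℝ) ^ 3 * S := by ring
        _ ≤ _ := by gcongr; norm_num
    have hmain : 2 * (X : ℝ) * rho (W i) * P031.mertSum (Zi i) ≤
        (X : ℝ) * rho (W i) * (cA / κ) * ((κ : ℝ) * log (Zi i : ℝ)) := by
      rw [show (X : ℝ) * rho (W i) * (cA / κ) * ((κ : ℝ) * log (Zi i : ℝ)) =
        2 * (X : ℝ) * rho (W i) * ((1 + |A|) * log (Zi i : ℝ)) by rw [hcA]; field_simp]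
      exact mul_le_mul_of_nonneg_left hmert
        (mul_nonneg (by positivity) (rho_nonneg _ (hWp i)))
    have hj0 : 100 * (y : ℝ) ^ 3 * S ≤ 100 * (y : ℝ) ^ 3 * S * ((κ : ℝ) * log (Zi i : ℝ)) :=
      le_mul_of_one_le_right (by positivity) hden
    linarith
  have hB6 : ((U.filter fun u => μ / 2 ≤ B u).card : ℝ) ≤ δ * X := by
    have h1 : ((U.filter fun u => μ / 2 ≤ B u).card : ℝ) * (μ / 2) ≤ ∑ u ∈ U, B u := by
      refine le_trans ?_ (sum_le_sum_of_subset_of_nonneg (filter_subset (fun u => μ / 2 ≤ B u) U)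
        fun u _ _ => sum_nonneg (hterm0 u))
      rw [← nsmul_eq_mul]
      exact card_nsmul_le_sum _ _ _ fun u hu => (mem_filter.1 hu).2
    obtain ⟨-, h2⟩ := hSsplit
    rw [div_mul_eq_mul_div, div_mul_eq_mul_div, div_le_iff₀ hδ0] at h2
    have h3 : cA / (κ : ℝ) ≤ δ / 4 := by
      rw [div_le_iff₀ hκ0]
      rw [div_le_iff₀ hδ0] at hκle
      linarith
    refine le_of_mul_le_mul_right (h1.trans (hBsum.trans ?_)) (by linarith : 0 < μ / 2)
    have hX0 : (0 : ℝ) ≤ X := Nat.cast_nonneg X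
    have h4 := mul_le_mul_of_nonneg_left h3 (show (0 : ℝ) ≤ (X : ℝ) * μ by positivity)
    have h5 : (X : ℝ) * δ ≤ (X : ℝ) * δ * μ := le_mul_of_one_le_right (by positivity) hμ1
    linarith
  exact ⟨hB5, hB6⟩

open scoped Classical in
theorem none_small {δ C : ℝ} (hδ0 : 0 < δ) (hC : P031.MertensWith C) {I j X y : ℕ} (hI : 1 ≤ I)
    (hj1 : 1 ≤ j) (hX1 : 1 ≤ X) (hyX : (y : ℝ) ≤ log (X : ℝ)) (Zi : ℕ → ℕ)
    (hlogZ : ∀ i < I, 3 + 2 * C + 3 * (I : ℝ) / δ ≤ log (Zi i : ℝ))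
    (hZiy : ∀ i < I, Zi i ^ (2 * j) ≤ y) :
    (((Icc 1 X).filter fun u => ∃ i ∈ range I,
      ∀ r ∈ primeRange X ((Zi i : ℝ) ^ j) ((Zi i : ℝ) ^ (2 * j)), ¬ r ∣ u).card : ℝ) ≤ δ * X := by
  have hC0 := hC.1
  set R : ℕ → Finset ℕ := fun i => primeRange X ((Zi i : ℝ) ^ j) ((Zi i : ℝ) ^ (2 * j)) with hR
  set U := Icc 1 X with hU
  have hIδ : 0 ≤ 3 * (I : ℝ) / δ := by positivity
  have hB7 : ((U.filter fun u => ∃ i ∈ range I, ∀ r ∈ R i, ¬ r ∣ u).card : ℝ) ≤ δ * X := by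
    refine (card_exists_le X _ _).trans ((sum_le_sum (g := fun _ : ℕ => δ / (I : ℝ) * X)
      fun i hi => ?_).trans ?_)
    · have hlz := hlogZ i (mem_range.1 hi)
      have hmass : log (Zi i : ℝ) - 2 * C ≤ ∑ r ∈ R i, 1 / (r : ℝ) := by
        have h1 : 1 ≤ log ((Zi i : ℝ) ^ j) := by
          rw [log_pow]
          exact one_le_mul_of_one_le_of_one_le (by exact_mod_cast (show 1 ≤ j by omega))
            (by linarith)
        refine le_trans ?_ (P031.le_mass_window hC (a := log ((Zi i : ℝ) ^ j))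
          (b := log ((Zi i : ℝ) ^ (2 * j))) h1 (R i) fun r hrp ha hb => ?_)
        · rw [log_pow, log_pow]
          have hj1 : (1 : ℝ) ≤ j := by exact_mod_cast (show 1 ≤ j by omega)
          push_cast
          nlinarith
        · have hlr : 0 < log (r : ℝ) := log_pos (by exact_mod_cast hrp.one_lt)
          have hpos : (0 : ℝ) < (Zi i : ℝ) := by
            rcases Nat.eq_zero_or_pos (Zi i) with h | h
            · rw [h, Nat.cast_zero, log_zero] at hlz; linarith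
            · exact_mod_cast h
          have h3 : log (r : ℝ) ≤ (Zi i : ℝ) ^ (2 * j) :=
            (log_le_log_iff hlr (pow_pos hpos _)).1 hb
          refine mem_primeRange.2 ⟨?_, hrp,
            (log_lt_log_iff (pow_pos hpos _) hlr).1 ha, h3⟩
          have h4 : Zi i ^ (2 * j) ≤ y := hZiy i (mem_range.1 hi)
          have h5 : log (r : ℝ) ≤ log (X : ℝ) :=
            h3.trans (le_trans (by exact_mod_cast h4) hyX)
          exact_mod_cast (log_le_log_iff (Nat.cast_pos.2 hrp.pos) (Nat.cast_pos.2 hX1)).1 h5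
      have hm : 3 + 3 * (I : ℝ) / δ ≤ ∑ r ∈ R i, 1 / (r : ℝ) := by linarith
      refine (fail_none (R i) (fun r hr => (mem_primeRange.1 hr).2.1) ?_ (by linarith)).trans ?_
      · refine le_trans (card_le_card (t := Icc 1 X) fun r hr => ?_) (by simp)
        obtain ⟨h1, h2, -⟩ := mem_primeRange.1 hr
        exact mem_Icc.2 ⟨h2.pos, h1⟩
      · have hI0 : (0 : ℝ) < I := Nat.cast_pos.2 (by omega)
        rw [div_le_iff₀ (by linarith), mul_right_comm]
        refine mul_le_mul_of_nonneg_right ?_ (Nat.cast_nonneg X)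
        have h1 : 3 * (I : ℝ) / δ ≤ ∑ r ∈ R i, 1 / (r : ℝ) := by linarith
        rw [div_mul_eq_mul_div, le_div_iff₀ hI0]
        rw [div_le_iff₀ hδ0] at h1
        linarith
    · rw [sum_const, card_range, nsmul_eq_mul]
      have hI0 : (I : ℝ) ≠ 0 := Nat.cast_ne_zero.2 (by omega)
      exact le_of_eq (by field_simp)
  exact hB7

end Vale.Agent.P033
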