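import Vale.Agent.P033.Descent
import Vale.Agent.P033.Windows

/-!
Almost every `u` is excluded: the orders of circulant Hadamard matrices have density zero.
-/

open Finset Real Filter

namespace Vale.Agent.P033

/-- The conditions on `u` under which the descent excludes the order `4 u ^ 2`. -/
theorem excluded {X u Z κ j : ℕ} {r : ℕ} {D : ℝ} (hu : u ∈ Icc 1 X) (hj : j = 4 * κ + 1)
    (hZ : 6 ≤ Z) (hr : r.Prime) (hru : r ∣ u) (hsq : ¬ r * r ∣ u)
    (hcong : ∀ l ∈ u.primeFactors, ¬ r ∣ l - 1)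
    (hbad : ∀ q ∈ u.primeFactors, q ≠ r → log (r : ℝ) ^ 8 < q →
      (q : ZMod (r ^ 2)) ^ (r - 1) ≠ 1)
    (hlo : (Z : ℝ) ^ j < log r) (hhi : log (r : ℝ) ≤ (Z : ℝ) ^ (2 * j))
    (hwin : ∀ p : ℕ, p.Prime → Z < p → p ≤ Z ^ (16 * j) → ¬ p ∣ u)
    (hsmall : smallLog Z u ≤ κ * log Z) (hD : (u.divisors.card : ℝ) ≤ D)
    (hrD : 6 * D ^ 2 + 1 < r) :
    ¬ ∃ h : ℕ → ℤ, (∀ k, k < 4 * u ^ 2 → h k = 1 ∨ h k = -1) ∧
      ∀ t, 1 ≤ t → t < 4 * u ^ 2 →
        ∑ k ∈ range (4 * u ^ 2), h k * h ((k + t) % (4 * u ^ 2)) = 0 := by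
  classical
  rintro ⟨h, hsign, hcorr⟩
  obtain ⟨hu1, -⟩ := mem_Icc.1 hu
  obtain ⟨w, hw⟩ := hru
  have hw0 : w ≠ 0 := by rintro rfl; rw [mul_zero] at hw; omega
  have hwu : w ∣ u := ⟨r, by rw [hw, mul_comm]⟩
  have hrw : ¬ r ∣ w := fun hd => hsq (hw ▸ Nat.mul_dvd_mul_left r hd)
  set g := ∏ p ∈ w.primeFactors.filter (fun p => ¬ p ≤ Z), p ^ w.factorization p with hg
  set s := ∏ p ∈ w.primeFactors.filter (fun p => p ≤ Z), p ^ w.factorization p with hs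
  have hgs : g * s = w := by
    rw [hg, hs, mul_comm, prod_filter_mul_prod_filter_not]
    exact (Nat.prod_factorization_eq_prod_primeFactors (fun p k => p ^ k)).symm.trans
      (Nat.prod_factorization_pow_eq_self hw0)
  have hg0 : 0 < g := prod_pos fun p hp =>
    pow_pos (Nat.prime_of_mem_primeFactors (mem_filter.1 hp).1).pos _
  have hs0 : 0 < s := prod_pos fun p hp =>
    pow_pos (Nat.prime_of_mem_primeFactors (mem_filter.1 hp).1).pos _
  have hZ1 : (1 : ℝ) ≤ (Z : ℝ) := by exact_mod_cast (show 1 ≤ Z by omega)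
  have hZ6 : (6 : ℝ) ≤ (Z : ℝ) := by exact_mod_cast hZ
  have hr2 : r ≠ 2 := by
    rintro rfl
    have h1 : (Z : ℝ) ≤ (Z : ℝ) ^ j := le_self_pow₀ hZ1 (by omega)
    have := Real.log_two_lt_d9
    push_cast at hlo
    linarith
  have hφ : ¬ r ∣ (4 * w ^ 2).totient := by
    rw [Nat.totient_eq_prod_factorization (by positivity), Finsupp.prod,
      (Nat.Prime.prime hr).dvd_finsetProd_iff]
    rintro ⟨p, hp, hd⟩
    rw [Nat.support_factorization, Nat.mem_primeFactors] at hp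
    obtain ⟨hpp, hpd, -⟩ := hp
    have hp2 : p = 2 ∨ p ∣ w := by
      rcases (Nat.Prime.dvd_mul hpp).1 hpd with h4 | h4
      · exact Or.inl ((Nat.prime_dvd_prime_iff_eq hpp Nat.prime_two).1
          (hpp.dvd_of_dvd_pow (show p ∣ 2 ^ 2 by simpa using h4)))
      · exact Or.inr (hpp.dvd_of_dvd_pow h4)
    rcases hr.dvd_mul.1 hd with h1 | h1
    · have := (Nat.prime_dvd_prime_iff_eq hr hpp).1 (hr.dvd_of_dvd_pow h1)
      subst this
      rcases hp2 with q | q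
      · exact hr2 q
      · exact hrw q
    · rcases hp2 with q | q
      · subst q
        exact hr.one_lt.ne' (Nat.dvd_one.1 h1)
      · exact hcong p (Nat.mem_primeFactors.2 ⟨hpp, q.trans hwu, by omega⟩) h1
  have hgood : ∀ p : ℕ, p.Prime → p ∣ g → ((p : ZMod (r ^ 2))) ^ (r - 1) ≠ 1 := by
    intro p hp hpg
    obtain ⟨q, hq, hpq⟩ := (Nat.Prime.prime hp).exists_mem_finset_dvd hpg
    obtain ⟨hq1, hq2⟩ := mem_filter.1 hq
    have := (Nat.prime_dvd_prime_iff_eq hp (Nat.prime_of_mem_primeFactors hq1)).1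
      (hp.dvd_of_dvd_pow hpq)
    subst this
    obtain ⟨-, hpw, -⟩ := Nat.mem_primeFactors.1 hq1
    have hbig : Z ^ (16 * j) < p :=
      not_le.1 fun hle => hwin p hp (by omega) hle (hpw.trans hwu)
    refine hbad p (Nat.mem_primeFactors.2 ⟨hp, hpw.trans hwu, by omega⟩)
      (fun e => hrw (e ▸ hpw)) ?_
    calc log (r : ℝ) ^ 8 ≤ ((Z : ℝ) ^ (2 * j)) ^ 8 :=
          pow_le_pow_left₀ (log_natCast_nonneg r) hhi 8
      _ = ((Z ^ (16 * j) : ℕ) : ℝ) := by rw [← pow_mul]; push_cast; ring_nf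
      _ < p := by exact_mod_cast hbig
  have hsZ : (s : ℝ) ≤ (Z : ℝ) ^ κ := by
    rw [← log_le_log_iff (Nat.cast_pos.2 hs0) (by positivity), log_pow]
    refine le_trans ?_ hsmall
    rw [hs, Nat.cast_prod, log_prod fun p hp => Nat.cast_ne_zero.2
      (pow_ne_zero _ (Nat.prime_of_mem_primeFactors (mem_filter.1 hp).1).ne_zero)]
    refine le_trans (sum_le_sum (g := fun p : ℕ => (u.factorization p : ℝ) * log p) fun p hp => ?_)
      (sum_le_sum_of_subset_of_nonneg (fun p hp => ?_) fun p _ _ =>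
        mul_nonneg (Nat.cast_nonneg _) (log_natCast_nonneg p))
    · rw [Nat.cast_pow, log_pow]
      refine mul_le_mul_of_nonneg_right ?_ (log_natCast_nonneg p)
      exact_mod_cast (Nat.factorization_le_iff_dvd hw0 (by omega)).2 hwu p
    · obtain ⟨h1, h2⟩ := mem_filter.1 hp
      exact mem_filter.2 ⟨mem_range.2 (by omega), Nat.prime_of_mem_primeFactors h1⟩
  have hbig : 256 ^ s ^ 4 < r := by
    have h1 : (s : ℝ) ^ 4 ≤ (Z : ℝ) ^ (4 * κ) := by
      rw [mul_comm 4 κ, pow_mul]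
      exact pow_le_pow_left₀ (Nat.cast_nonneg s) hsZ 4
    have h2 : log (256 : ℝ) ≤ 6 := by
      rw [show (256 : ℝ) = 2 ^ 8 by norm_num, log_pow]
      have := Real.log_two_lt_d9
      push_cast
      linarith
    have h3 : ((s ^ 4 : ℕ) : ℝ) * log 256 < log r := by
      refine lt_of_le_of_lt ?_ hlo
      rw [hj, pow_succ (Z : ℝ) (4 * κ)]
      push_cast
      exact mul_le_mul h1 (h2.trans hZ6) (log_nonneg (by norm_num)) (by positivity)
    rw [← log_pow] at h3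
    exact_mod_cast (log_lt_log_iff (by positivity) (Nat.cast_pos.2 hr.pos)).1 h3
  have hτ : 2 * (4 * w ^ 2).divisors.card + 1 < r := by
    have h1 : (4 * w ^ 2).divisors.card ≤ 3 * (u.divisors.card * u.divisors.card) := by
      have hsub := card_le_card (Nat.divisors_subset_of_dvd (by omega) hwu)
      rw [Nat.divisors_mul, pow_two, Nat.divisors_mul]
      refine card_mul_le.trans (Nat.mul_le_mul (by decide) ?_)
      exact card_mul_le.trans (Nat.mul_le_mul hsub hsub)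
    have h2 : ((2 * (4 * w ^ 2).divisors.card + 1 : ℕ) : ℝ) < r := by
      have h1' : (((4 * w ^ 2).divisors.card : ℕ) : ℝ) ≤
          3 * ((u.divisors.card : ℝ) * u.divisors.card) := by exact_mod_cast h1
      have := mul_le_mul hD hD (Nat.cast_nonneg _) ((Nat.cast_nonneg _).trans hD)
      push_cast
      nlinarith
    exact_mod_cast h2
  refine no_circulant hr hr2 hg0 hs0 (hgs.symm ▸ hrw) (hgs.symm ▸ hφ) hgood hbig
    (hgs.symm ▸ hτ) (n := 4 * u ^ 2) (by rw [hgs, ← hw]) h hsign hcorr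

theorem exp_neg_le_one_sub {p : ℝ} (hp : 2 ≤ p) : exp (-(1 / (p - 1))) ≤ 1 - 1 / p := by
  have h1 : 0 < p - 1 := by linarith
  rw [exp_neg, show 1 - 1 / p = (1 + 1 / (p - 1))⁻¹ by field_simp; ring]
  exact inv_anti₀ (by positivity) (by linarith [add_one_le_exp (1 / (p - 1))])

theorem rho_window {C : ℝ} (hM : P031.MertensWith C) {Z M : ℕ} (hZ : 3 ≤ log (Z : ℝ)) (hM1 : 1 ≤ M)
    (S : Finset ℕ) (hS : ∀ p ∈ S, p.Prime ∧ Z < p ∧ p ≤ Z ^ M) :
    exp (-(2 * C + 3)) / M ≤ rho S := by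
  have hl : 1 ≤ log (log (Z : ℝ)) := by
    rw [le_log_iff_exp_le (by linarith)]
    linarith [Real.exp_one_lt_d9]
  have hM0 : (0 : ℝ) < M := Nat.cast_pos.2 hM1
  have hlM : 0 ≤ log (M : ℝ) := log_natCast_nonneg M
  have hZ1 : 1 ≤ Z := Nat.pos_of_ne_zero fun h => by
    rw [h, Nat.cast_zero, log_zero] at hZ; linarith
  have hmass : ∑ p ∈ S, (1 : ℝ) / p ≤ log (log Z) + log M - log (log Z) + 2 * C + 1 := by
    refine P031.mass_le_window hM hl (by linarith) S fun p hp => ?_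
    obtain ⟨hpp, hZp, hpM⟩ := hS p hp
    have hZR : (0 : ℝ) < Z := Nat.cast_pos.2 hZ1
    refine ⟨hpp, ?_, ?_⟩
    · exact log_le_log (by linarith) (log_le_log hZR (by exact_mod_cast hZp.le))
    · have h1 : log (p : ℝ) ≤ (M : ℝ) * log Z := by
        rw [← log_pow]
        exact log_le_log (Nat.cast_pos.2 hpp.pos) (by exact_mod_cast hpM)
      rw [P031.ll, add_comm, ← log_mul hM0.ne' (by linarith)]
      exact log_le_log (log_pos (by exact_mod_cast hpp.one_lt)) h1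
  have hsq : ∑ p ∈ S, 1 / (p : ℝ) ^ 2 ≤ 1 := P031.sum_inv_sq_le_one S fun p hp => (hS p hp).1.two_le
  have h2 : ∑ p ∈ S, 1 / ((p : ℝ) - 1) ≤ log M + (2 * C + 3) := by
    refine le_trans (sum_le_sum (g := fun p : ℕ => (1 : ℝ) / p + 2 * (1 / (p : ℝ) ^ 2))
      fun p hp => ?_) ?_
    · have hp2 : (2 : ℝ) ≤ p := by exact_mod_cast (hS p hp).1.two_le
      rw [div_le_iff₀ (by linarith)]
      field_simp
      nlinarith
    · rw [sum_add_distrib, ← mul_sum]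
      linarith
  calc exp (-(2 * C + 3)) / M = exp (-(log M + (2 * C + 3))) := by
        rw [neg_add (log (M : ℝ)), exp_add, exp_neg (log (M : ℝ)), exp_log hM0, div_eq_inv_mul]
    _ ≤ exp (∑ p ∈ S, -(1 / ((p : ℝ) - 1))) := by
        rw [sum_neg_distrib]; exact exp_le_exp.2 (by linarith)
    _ = ∏ p ∈ S, exp (-(1 / ((p : ℝ) - 1))) := exp_sum _ _
    _ ≤ rho S := prod_le_prod (fun p _ => (exp_pos _).le) fun p hp =>
        exp_neg_le_one_sub (by exact_mod_cast (hS p hp).1.two_le)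

/-- A union of seven exceptional sets, with any decidability instances. -/
theorem union_seven {s : Finset ℕ} {a b c d e f g : ℕ → Prop} {_ : DecidablePred a}
    {_ : DecidablePred b} {_ : DecidablePred c} {_ : DecidablePred d} {_ : DecidablePred e}
    {_ : DecidablePred f} {_ : DecidablePred g}
    {_ : DecidablePred fun u => a u ∨ b u ∨ c u ∨ d u ∨ e u ∨ f u ∨ g u}
    {x₁ x₂ x₃ x₄ x₅ x₆ x₇ : ℝ} (h₁ : ((s.filter a).card : ℝ) ≤ x₁)
    (h₂ : ((s.filter b).card : ℝ) ≤ x₂) (h₃ : ((s.filter c).card : ℝ) ≤ x₃)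
    (h₄ : ((s.filter d).card : ℝ) ≤ x₄) (h₅ : ((s.filter e).card : ℝ) ≤ x₅)
    (h₆ : ((s.filter f).card : ℝ) ≤ x₆) (h₇ : ((s.filter g).card : ℝ) ≤ x₇) :
    ((s.filter fun u => a u ∨ b u ∨ c u ∨ d u ∨ e u ∨ f u ∨ g u).card : ℝ) ≤
      x₁ + x₂ + x₃ + x₄ + x₅ + x₆ + x₇ := by
  have h : (s.filter fun u => a u ∨ b u ∨ c u ∨ d u ∨ e u ∨ f u ∨ g u).card ≤
      (s.filter a).card + (s.filter b).card + (s.filter c).card + (s.filter d).card +
        (s.filter e).card + (s.filter f).card + (s.filter g).card := by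
    refine le_trans (card_le_card (t := (((((s.filter a ∪ s.filter b) ∪ s.filter c) ∪
      s.filter d) ∪ s.filter e) ∪ s.filter f) ∪ s.filter g) fun u hu => ?_) ?_
    · obtain ⟨hu, h⟩ := mem_filter.1 hu
      simp only [mem_union, mem_filter, hu, true_and]
      tauto
    · refine (card_union_le _ _).trans (add_le_add ((card_union_le _ _).trans (add_le_add
        ((card_union_le _ _).trans (add_le_add ((card_union_le _ _).trans (add_le_add
          ((card_union_le _ _).trans (add_le_add (card_union_le _ _) le_rfl)) le_rfl))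
            le_rfl)) le_rfl)) le_rfl)
  have h' := Nat.cast_le (α := ℝ).2 h
  push_cast at h'
  linarith

/-- If the empty windows outweigh their small parts, one of them has a small part. -/
theorem exists_good_window {I κ u : ℕ} (W : ℕ → Finset ℕ) (Zi : ℕ → ℕ)
    (hd : ∀ i ∈ range I, 0 < (κ : ℝ) * log (Zi i : ℝ))
    (h : smallWeight W Zi I κ u < emptyCount W I u) :
    ∃ i ∈ range I, (∀ p ∈ W i, ¬ p ∣ u) ∧ smallLog (Zi i) u ≤ κ * log (Zi i : ℝ) := by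
  classical
  by_contra hcon
  simp only [not_exists, not_and, not_le] at hcon
  refine absurd h (not_lt.2 ?_)
  rw [smallWeight, emptyCount]
  refine sum_le_sum fun i hi => ?_
  by_cases hw : ∀ p ∈ W i, ¬ p ∣ u
  · rw [if_pos hw, if_pos hw, le_div_iff₀ (hd i hi), one_mul]
    exact (hcon i hi hw).le
  · rw [if_neg hw, if_neg hw, zero_div]

theorem windows_disjoint {Zi : ℕ → ℕ} {M I : ℕ} (hZinext : ∀ i, Zi i ^ M = Zi (i + 1))
    (hZimono : ∀ i k, i ≤ k → Zi i ≤ Zi k) :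
    ∀ i < I, ∀ k < I, i ≠ k → Disjoint (window (Zi i) M) (window (Zi k) M) := by
  intro i _ k _ hik
  rw [disjoint_left]
  intro p hp hp'
  obtain ⟨-, h1, h2⟩ := mem_window.1 hp
  obtain ⟨-, h3, h4⟩ := mem_window.1 hp'
  rw [hZinext] at h2 h4
  rcases lt_or_gt_of_ne hik with h | h
  · have := hZimono (i + 1) k h; omega
  · have := hZimono (k + 1) i h; omega

theorem windows_prod {Zi : ℕ → ℕ} {M I y : ℕ} (hZiy : ∀ i < I, Zi i ^ M ≤ y) :
    ∀ i < I, ∀ k < I,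
      ((∏ p ∈ window (Zi i) M ∪ window (Zi k) M, p : ℕ) : ℝ) ≤ (4 : ℝ) ^ y := by
  intro i hi k hk
  have h1 : ∏ p ∈ window (Zi i) M ∪ window (Zi k) M, p ≤ 4 ^ y := by
    refine le_trans (Nat.le_of_dvd (primorial_pos y) ?_) (primorial_le_four_pow y)
    rw [primorial]
    refine prod_dvd_prod_of_subset _ _ _ fun p hp => ?_
    rw [mem_filter, mem_range, Nat.lt_succ_iff]
    rcases mem_union.1 hp with h | h
    · obtain ⟨h1, -, h3⟩ := mem_window.1 h
      exact ⟨le_trans h3 (hZiy i hi), h1⟩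
    · obtain ⟨h1, -, h3⟩ := mem_window.1 h
      exact ⟨le_trans h3 (hZiy k hk), h1⟩
  exact_mod_cast h1

open scoped Classical in
/-- Outside the exceptional sets the descent applies. -/
theorem cover {X u κ j M I : ℕ} {Z₀ y : ℕ} {μ D : ℝ} (hu1 : u ∈ Icc 1 X) (hj : j = 4 * κ + 1)
    (hM : M = 16 * j) (Zi : ℕ → ℕ) (hκ0 : (0 : ℝ) < κ) (hZ6 : ∀ i < I, 6 ≤ Zi i)
    (hlog : ∀ i < I, 0 < log (Zi i : ℝ))
    (hRsub : ∀ i < I, primeRange X ((Zi i : ℝ) ^ j) ((Zi i : ℝ) ^ (2 * j)) ⊆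
      primeRange X ((Z₀ : ℝ) ^ j) y)
    (hrD : ∀ r ∈ primeRange X ((Z₀ : ℝ) ^ j) y, 6 * D ^ 2 + 1 < r)
    (hch : ∃ h : ℕ → ℤ, (∀ k, k < 4 * u ^ 2 → h k = 1 ∨ h k = -1) ∧
      ∀ t, 1 ≤ t → t < 4 * u ^ 2 →
        ∑ k ∈ range (4 * u ^ 2), h k * h ((k + t) % (4 * u ^ 2)) = 0) :
    (∃ r ∈ primeRange X ((Z₀ : ℝ) ^ j) y, r * r ∣ u) ∨
    (∃ r ∈ primeRange X ((Z₀ : ℝ) ^ j) y, r ∣ u ∧ ∃ l ∈ u.primeFactors, r ∣ l - 1) ∨
    (∃ r ∈ primeRange X ((Z₀ : ℝ) ^ j) y, r ∣ u ∧ ∃ q ∈ u.primeFactors, q ≠ r ∧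
      log (r : ℝ) ^ 8 < q ∧ (q : ZMod (r ^ 2)) ^ (r - 1) = 1) ∨
    D < (u.divisors.card : ℕ) ∨ emptyCount (fun i => window (Zi i) M) I u ≤ μ / 2 ∨
    μ / 2 ≤ smallWeight (fun i => window (Zi i) M) Zi I κ u ∨
    ∃ i ∈ range I, ∀ r ∈ primeRange X ((Zi i : ℝ) ^ j) ((Zi i : ℝ) ^ (2 * j)), ¬ r ∣ u := by
  by_contra hcon
  simp only [not_or] at hcon
  obtain ⟨n1, n2, n3, n4, n5, n6, n7⟩ := hcon
  obtain ⟨i, hi, he, hsm⟩ :=
    exists_good_window (fun i => window (Zi i) M) Zi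
      (fun i hi => mul_pos hκ0 (hlog i (mem_range.1 hi)))
      (lt_of_lt_of_le (lt_of_not_ge n6) (lt_of_not_ge n5).le)
  obtain ⟨r, hr, hru⟩ : ∃ r ∈ primeRange X ((Zi i : ℝ) ^ j) ((Zi i : ℝ) ^ (2 * j)), r ∣ u := by
    by_contra hcon
    simp only [not_exists, not_and] at hcon
    exact n7 ⟨i, hi, hcon⟩
  have hrR := hRsub i (mem_range.1 hi) hr
  obtain ⟨-, hrp, hlo, hhi⟩ := mem_primeRange.1 hr
  exact excluded hu1 hj (hZ6 i (mem_range.1 hi)) hrp hru (fun h => n1 ⟨r, hrR, h⟩)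
    (fun l hl h => n2 ⟨r, hrR, hru, l, hl, h⟩)
    (fun q hq hne hbig h => n3 ⟨r, hrR, hru, q, hq, hne, hbig, h⟩) hlo hhi
    (fun p hp h1 h2 => he p (mem_window.2 ⟨hp, h1, by rwa [hM]⟩)) hsm
    (not_lt.1 n4) (hrD r hrR) hch

open scoped Classical in
theorem density {ε : ℝ} (hε : 0 < ε) : ∃ X₀ : ℕ, ∀ X, X₀ ≤ X →
    (((Icc 1 X).filter fun u => ∃ h : ℕ → ℤ, (∀ k, k < 4 * u ^ 2 → h k = 1 ∨ h k = -1) ∧
      ∀ t, 1 ≤ t → t < 4 * u ^ 2 →
        ∑ k ∈ range (4 * u ^ 2), h k * h ((k + t) % (4 * u ^ 2)) = 0).card : ℝ) ≤ ε * X := by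
  obtain ⟨C, hC⟩ := P031.normalMertens
  obtain ⟨A, hA⟩ := P031.exists_mertSum_bound
  have hC0 := hC.1
  set δ := ε / 8 with hδ
  have hδ0 : 0 < δ := by positivity
  set κ := ⌈4 * (2 * (1 + |A|)) / δ⌉₊ + 1 with hκ
  have hκle : 4 * (2 * (1 + |A|)) / δ ≤ (κ : ℝ) :=
    (Nat.le_ceil _).trans (by rw [hκ]; push_cast; linarith)
  set j := 4 * κ + 1 with hj
  set M := 16 * j with hMdef
  set c0 := exp (-(2 * C + 3)) with hc0
  have hc00 : 0 < c0 := exp_pos _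
  set I := ⌈(M : ℝ) * (16 / δ + 1) / c0⌉₊ + 1 with hI
  have hIle : (M : ℝ) * (16 / δ + 1) / c0 ≤ (I : ℝ) :=
    (Nat.le_ceil _).trans (by rw [hI]; push_cast; linarith)
  set E := M ^ I with hE
  have hM16 : 16 ≤ M := by omega
  have hE0 : 0 < E := pow_pos (by omega) I
  have hME : M ≤ E := Nat.le_self_pow (by omega) M
  obtain ⟨K₁, hK₁⟩ := range_small hδ0 hC E j hE0 (by omega)
  obtain ⟨K₄, hK₄⟩ := eventually_poly (12 * (I : ℝ) ^ 2 / δ + 400 * I / δ + 1) 3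
  set K₀ : ℝ := max (max K₁ K₄) (max (exp (3 + 2 * C + 3 * (I : ℝ) / δ)) 6) with hK₀
  obtain ⟨K, hK⟩ := exists_nat_ge K₀
  refine ⟨4 ^ (2 * (max K 1) ^ E), fun X hX => ?_⟩
  set y := Nat.log 4 X / 2 with hy
  have hX1 : 1 ≤ X := le_trans (Nat.one_le_pow _ _ (by norm_num)) hX
  have hyK : (max K 1) ^ E ≤ y := by
    rw [hy, Nat.le_div_iff_mul_le two_pos, mul_comm]
    exact Nat.le_log_of_pow_le (by norm_num) hX
  have hy4 : 4 ^ (2 * y) ≤ X :=
    (Nat.pow_le_pow_right (by norm_num) (Nat.mul_div_le _ 2)).trans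
      (Nat.pow_log_le_self 4 (by omega))
  have hlt : X < 4 ^ (2 * y + 2) :=
    lt_of_lt_of_le (Nat.lt_pow_succ_log_self (by norm_num) X)
      (Nat.pow_le_pow_right (by norm_num) (by omega))
  set Z₀ := Nat.findGreatest (fun z => z ^ E ≤ y) y with hZ₀
  have hmax1 : max K 1 ≤ y := le_trans (Nat.le_self_pow hE0.ne' _) hyK
  have hZK : max K 1 ≤ Z₀ := Nat.le_findGreatest hmax1 hyK
  have hZE : Z₀ ^ E ≤ y := Nat.findGreatest_spec (P := fun z => z ^ E ≤ y) hmax1 hyK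
  have hyZ : y < (Z₀ + 1) ^ E := by
    by_contra hcon
    push Not at hcon
    rcases le_or_gt (Z₀ + 1) y with h | h
    · have := Nat.le_findGreatest (P := fun z => z ^ E ≤ y) h hcon
      omega
    · have := Nat.le_self_pow hE0.ne' (Z₀ + 1)
      omega
  set z := (Z₀ : ℝ) with hz
  have hzK : K₀ ≤ z := hK.trans (by rw [hz]; exact_mod_cast (le_max_left K 1).trans hZK)
  obtain ⟨hz14, hz56⟩ := max_le_iff.1 hzK
  obtain ⟨hzK1, hzK4⟩ := max_le_iff.1 hz14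
  obtain ⟨hzexp, hz6⟩ := max_le_iff.1 hz56
  have hZ6 : 6 ≤ Z₀ := by rw [hz] at hz6; exact_mod_cast hz6
  have hlogz : 3 + 2 * C + 3 * (I : ℝ) / δ ≤ log z :=
    (le_log_iff_exp_le (by linarith)).2 hzexp
  have hIδ : 0 ≤ 3 * (I : ℝ) / δ := by positivity
  -- scales
  set Zi : ℕ → ℕ := fun i => Z₀ ^ (M ^ i) with hZi
  have hZi0 : ∀ i, Z₀ ≤ Zi i := fun i => Nat.le_self_pow (pow_ne_zero _ (by omega)) _
  have hZinext : ∀ i, Zi i ^ M = Zi (i + 1) := fun i => by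
    simp only [hZi, ← pow_mul, pow_succ]
  have hZimono : ∀ i k, i ≤ k → Zi i ≤ Zi k := fun i k h =>
    Nat.pow_le_pow_right (by omega) (Nat.pow_le_pow_right (by omega) h)
  have hZiy : ∀ i < I, Zi i ^ M ≤ y := fun i hi => by
    rw [hZinext]
    exact le_trans (hZimono (i + 1) I (by omega)) hZE
  -- size facts
  have hyR : (y : ℝ) ≤ (2 * z) ^ E := by
    refine le_trans (Nat.cast_le.2 hyZ.le) ?_
    push_cast
    exact pow_le_pow_left₀ (by positivity) (by linarith) E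
  have hzy : z ≤ (y : ℝ) := by
    rw [hz]; exact_mod_cast (Nat.le_self_pow hE0.ne' Z₀).trans hZE
  have hlogX : 1 + log (X : ℝ) ≤ 7 * (y : ℝ) := by
    have h1 : log (X : ℝ) ≤ ((2 * y + 2 : ℕ) : ℝ) * log 4 := by
      rw [← log_pow]
      exact log_le_log (Nat.cast_pos.2 hX1) (by exact_mod_cast hlt.le)
    have h2 : log (4 : ℝ) ≤ 2 := by
      rw [show (4 : ℝ) = 2 ^ 2 by norm_num, log_pow]
      have := Real.log_two_lt_d9
      push_cast
      linarith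
    push_cast at h1
    nlinarith
  have hlogXz : 1 + log (X : ℝ) ≤ 7 * 2 ^ E * z ^ E := by
    refine hlogX.trans ((mul_le_mul_of_nonneg_left hyR (by norm_num)).trans_eq ?_)
    rw [mul_pow]; ring
  have hyX : (y : ℝ) ≤ log (X : ℝ) := by
    have h1 : ((2 * y : ℕ) : ℝ) * log 4 ≤ log (X : ℝ) := by
      rw [← log_pow]
      exact log_le_log (by positivity) (by exact_mod_cast hy4)
    have h2 : 1 ≤ log (4 : ℝ) := by
      rw [show (4 : ℝ) = 2 ^ 2 by norm_num, log_pow]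
      have := Real.log_two_gt_d9
      push_cast
      linarith
    push_cast at h1
    nlinarith
  set S : ℝ := (4 : ℝ) ^ y with hSdef
  have hSX : S * S ≤ X := by
    rw [hSdef, ← pow_add, ← two_mul]
    exact_mod_cast hy4
  have hSexp : exp (y : ℝ) ≤ S := by
    rw [hSdef, ← exp_one_rpow, rpow_natCast]
    exact pow_le_pow_left₀ (exp_pos 1).le (by linarith [Real.exp_one_lt_d9]) y
  obtain ⟨hB1, hB2, hB3, hB4, hrD⟩ := hK₁ X Z₀ y hzK1 hX1 hzy hyR hlogXz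
  set W : ℕ → Finset ℕ := fun i => window (Zi i) M with hW
  have hWd := windows_disjoint (I := I) hZinext hZimono
  have hWS := windows_prod hZiy
  have hlogZi : ∀ i, log z ≤ log (Zi i : ℝ) := fun i =>
    log_le_log (by linarith) (by rw [hz]; exact_mod_cast hZi0 i)
  have hμlo : 16 / δ + 1 ≤ ∑ i ∈ range I, rho (W i) := by
    refine le_trans ?_ (card_nsmul_le_sum (range I) (fun i => rho (W i)) (c0 / M) fun i _ =>
      rho_window hC (by linarith [hlogZi i]) (by omega) _ fun p hp => mem_window.1 hp)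
    rw [card_range, nsmul_eq_mul, ← mul_div_assoc, le_div_iff₀ (Nat.cast_pos.2 (by omega)),
      mul_comm]
    exact (div_le_iff₀ hc00).1 hIle
  have hS1 : 1 ≤ S := one_le_pow₀ (by norm_num)
  have hy3 : (12 * (I : ℝ) ^ 2 / δ + 400 * I / δ + 1) * (y : ℝ) ^ 3 ≤ S :=
    (hK₄ (y : ℝ) (hzK4.trans hzy)).trans hSexp
  have hyR1 : 1 ≤ y := le_trans (le_max_right K 1) hmax1
  obtain ⟨hB5, hB6⟩ := windows_small hδ0 hA (by omega) hκle Zi W (fun i => window_prime) hWd hWS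
    (fun i _ => by linarith [hlogZi i])
    (fun i hi => (Nat.le_self_pow (by omega) (Zi i)).trans (hZiy i hi))
    hX1 hyR1 hlogX hS1 hSX hy3 hμlo
  have hB7 := none_small (j := j) hδ0 hC (by omega) (by omega) hX1 hyX Zi
    (fun i _ => hlogz.trans (hlogZi i))
    (fun i hi => le_trans (Nat.pow_le_pow_right (le_trans (by omega) (hZi0 i)) (by omega))
      (hZiy i hi))
  set μ := ∑ i ∈ range I, rho (W i) with hμ
  set RR := primeRange X (z ^ j) y with hRR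
  set R : ℕ → Finset ℕ := fun i => primeRange X ((Zi i : ℝ) ^ j) ((Zi i : ℝ) ^ (2 * j)) with hR
  set B : ℕ → ℝ := smallWeight W Zi I κ with hB
  set D := (1 + log (X : ℝ)) / δ with hD
  set U := Icc 1 X with hU
  have hκ0 : (0 : ℝ) < κ := Nat.cast_pos.2 (by omega)
  have hRsub : ∀ i < I, R i ⊆ RR := by
    intro i hi r hr
    obtain ⟨h0, h1, h2, h3⟩ := mem_primeRange.1 hr
    refine mem_primeRange.2 ⟨h0, h1, lt_of_le_of_lt (pow_le_pow_left₀ (by linarith)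
      (by rw [hz]; exact_mod_cast hZi0 i) j) h2, h3.trans ?_⟩
    have : Zi i ^ (2 * j) ≤ y :=
      le_trans (Nat.pow_le_pow_right (le_trans (by omega) (hZi0 i)) (by omega)) (hZiy i hi)
    exact_mod_cast this
  -- everything else is excluded
  refine le_trans (Nat.cast_le.2 (card_le_card (t := U.filter fun u =>
    (∃ r ∈ RR, r * r ∣ u) ∨ (∃ r ∈ RR, r ∣ u ∧ ∃ l ∈ u.primeFactors, r ∣ l - 1) ∨
    (∃ r ∈ RR, r ∣ u ∧ ∃ q ∈ u.primeFactors, q ≠ r ∧ log (r : ℝ) ^ 8 < q ∧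
      (q : ZMod (r ^ 2)) ^ (r - 1) = 1) ∨
    D < (u.divisors.card : ℕ) ∨ emptyCount W I u ≤ μ / 2 ∨ μ / 2 ≤ B u ∨
    ∃ i ∈ range I, ∀ r ∈ R i, ¬ r ∣ u) fun u hu => ?_)) ?_
  · obtain ⟨hu1, hch⟩ := mem_filter.1 hu
    exact mem_filter.2 ⟨hu1, cover hu1 hj hMdef Zi hκ0 (fun i _ => hZ6.trans (hZi0 i))
      (fun i _ => by linarith [hlogZi i]) hRsub hrD hch⟩
  · refine (union_seven hB1 hB2 hB3 hB4 hB5 hB6 hB7).trans (le_of_eq ?_)
    rw [hδ]
    ring

end Vale.Agent.P033
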