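import Vale.Agent.P033.Delta

/-!
A prime that divides `u` once and is large against the badly behaved part of `u` excludes
a circulant Hadamard matrix of order `4 u ^ 2`.
-/

open Finset ComplexConjugate

namespace Vale.Agent.P033

/-- The coefficient of the residue `v` in a combination of monomials. -/
noncomputable def slice {a : ℕ} {ι : Type*} (T : Finset ι) (c : ι → ℤ) (i j : ι → ℕ) (ξ : ℂ)
    (v : ZMod a) : ℂ :=
  ∑ k ∈ T, if (i k : ZMod a) = v then (c k : ℂ) * ξ ^ j k else 0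

theorem ev_slice {a : ℕ} [NeZero a] {ι : Type*} (T : Finset ι) (c : ι → ℤ) (i j : ι → ℕ) {ζ : ℂ}
    (h : ζ ^ a = 1) (ξ : ℂ) : ev (slice T c i j ξ : ZMod a → ℂ) ζ = evs T c i j ζ ξ := by
  simp only [ev, slice, sum_mul, ite_mul, zero_mul]
  rw [sum_comm]
  refine sum_congr rfl fun k _ => ?_
  rw [sum_ite_eq, if_pos (mem_univ _), pw_natCast h]
  ring

theorem slice_sub {a : ℕ} {ι : Type*} (T : Finset ι) (c : ι → ℤ) (i j : ι → ℕ) (ξ : ℂ)
    (v w : ZMod a) :
    slice T c i j ξ v - slice T c i j ξ w = ∑ k ∈ T,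
      ((c k * ((if (i k : ZMod a) = v then 1 else 0) - if (i k : ZMod a) = w then 1 else 0) : ℤ) : ℂ)
        * ξ ^ j k := by
  simp only [slice, ← sum_sub_distrib]
  refine sum_congr rfl fun k _ => ?_
  push_cast
  split_ifs <;> ring

theorem conj_evs {a b : ℕ} (ha : 0 < a) (hb : 0 < b) {ι : Type*} (T : Finset ι) (c : ι → ℤ)
    (i j : ι → ℕ) {ζ ξ : ℂ} (hζ : ζ ^ a = 1) (hξ : ξ ^ b = 1) :
    conj (evs T c i j ζ ξ) = evs T c i j (ζ ^ (a - 1)) (ξ ^ (b - 1)) := by
  have h1 : ∀ {n : ℕ} {x : ℂ}, 0 < n → x ^ n = 1 → conj x = x ^ (n - 1) := by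
    intro n x hn hx
    rw [conj_eq_inv hn.ne' hx]
    exact (eq_inv_of_mul_eq_one_left (by rw [← pow_succ, Nat.sub_add_cancel hn, hx])).symm
  simp [evs, h1 ha hζ, h1 hb hξ]

theorem card_units_classes {r : ℕ} [NeZero r] :
    (((univ : Finset (ZMod (r ^ 2))).filter fun j => cls r j ≠ 0).card : ℝ)
      = (r : ℝ) ^ 2 - r := by
  have h := card_filter_add_card_filter_not (s := (univ : Finset (ZMod (r ^ 2))))
    (fun j => cls r j = 0)
  have h' := card_fib (r := r) 0
  rw [fib] at h'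
  rw [h', card_univ, ZMod.card] at h
  have := congrArg (fun n : ℕ => (n : ℝ)) h
  push_cast at this
  linarith

/-- The descent: outside one class modulo `r` the coefficients are constant on classes. -/
theorem classes_const {r e : ℕ} (hr : r.Prime) (hr2 : r ≠ 2) (he : 0 < e)
    (hcop : (r ^ 2).Coprime e) {ι : Type*} (T : Finset ι) (c : ι → ℤ) (i j : ι → ℕ)
    (M s U : ℕ) (hU0 : U ≠ 0) (hMs : M * s ^ 2 = U) (hbig : 256 ^ s ^ 4 < r)
    (hU : ∀ ζ ξ : ℂ, IsPrimitiveRoot ζ (r ^ 2) → IsPrimitiveRoot ξ e →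
      evs T c i j ζ ξ * conj (evs T c i j ζ ξ) = (U : ℂ))
    (hfix : ∀ p : ℕ, p.Prime → p ∣ M → ∃ L k N' : ℕ, r ^ 2 * e = p ^ k * N' ∧
      ∀ t : ℕ, t ≡ 1 + r [MOD r ^ 2] → t ≡ 1 [MOD e] → t ≡ p ^ L [MOD N']) :
    ∃ c₀ : ZMod r, ∀ ξ : ℂ, IsPrimitiveRoot ξ e → ∀ v w : ZMod (r ^ 2),
      cls r v = cls r w → cls r v ≠ c₀ → slice T c i j ξ v = slice T c i j ξ w := by
  classical
  have := Fact.mk hr
  have ha : 0 < r ^ 2 := pow_pos hr.pos 2
  have hM0 : M ≠ 0 := fun h => hU0 (by rw [← hMs, h, zero_mul])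
  have hs0 : s ≠ 0 := fun h => hU0 (by rw [← hMs, h]; simp)
  obtain ⟨F, W, hF⟩ := delta_exists hr he hcop T c i j M U hM0 (Dvd.intro _ hMs) (fun ζ ξ h1 h2 =>
    by rw [← conj_evs ha he T c i j h1.pow_eq_one h2.pow_eq_one]; exact hU ζ ξ h1 h2) hfix
  set f : ℂ → ZMod (r ^ 2) → ℂ := fun ξ => slice W F (fun q => q.1.val) (fun q => q.2) ξ with hf
  set g : ℂ → ℂ → ℂ := fun ζ ξ => evs T c i j ζ ξ with hg
  have hne2 : r.Coprime (1 + r) := Nat.coprime_add_self_right.2 (Nat.coprime_one_right r)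
  have hprim : ∀ {ζ : ℂ}, IsPrimitiveRoot ζ (r ^ 2) → IsPrimitiveRoot (ζ ^ (1 + r)) (r ^ 2) :=
    fun h => h.pow_of_coprime _ (hne2.symm.pow_right 2)
  have hδ : ∀ ζ ξ, IsPrimitiveRoot ζ (r ^ 2) → IsPrimitiveRoot ξ e →
      (M : ℂ) * ev (f ξ) ζ = g (ζ ^ (1 + r)) ξ * conj (g ζ ξ) := by
    intro ζ ξ h1 h2
    simp only [hf, hg]
    rw [ev_slice _ _ _ _ h1.pow_eq_one, hF ζ ξ h1 h2,
      conj_evs ha he T c i j h1.pow_eq_one h2.pow_eq_one]
  have hMC : (M : ℂ) ≠ 0 := Nat.cast_ne_zero.2 hM0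
  have hMs' : (U : ℂ) = M * (s : ℂ) ^ 2 := by rw [← hMs]; push_cast; ring
  have hmod : ∀ ζ ξ, IsPrimitiveRoot ζ (r ^ 2) → IsPrimitiveRoot ξ e →
      ev (f ξ) ζ * conj (ev (f ξ) ζ) = (s : ℂ) ^ 4 := by
    intro ζ ξ h1 h2
    have e1 := hU _ _ (hprim h1) h2
    have e2 := hU _ _ h1 h2
    have e3 : ((M : ℂ) * ev (f ξ) ζ) * conj ((M : ℂ) * ev (f ξ) ζ) = (U : ℂ) * U := by
      rw [hδ ζ ξ h1 h2, map_mul, Complex.conj_conj]
      calc g (ζ ^ (1 + r)) ξ * conj (g ζ ξ) * (conj (g (ζ ^ (1 + r)) ξ) * g ζ ξ)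
          = (g (ζ ^ (1 + r)) ξ * conj (g (ζ ^ (1 + r)) ξ)) * (g ζ ξ * conj (g ζ ξ)) := by ring
        _ = _ := by simp only [hg]; rw [e1, e2]
    rw [map_mul, Complex.conj_natCast, hMs'] at e3
    refine mul_left_cancel₀ (mul_ne_zero hMC hMC) ?_
    linear_combination e3
  have hmod' : ∀ ζ ξ, IsPrimitiveRoot ζ (r ^ 2) → IsPrimitiveRoot ξ e →
      Complex.normSq (ev (f ξ) ζ) = (s : ℝ) ^ 4 := fun ζ ξ h1 h2 => by
    apply Complex.ofReal_injective
    rw [← Complex.mul_conj, hmod ζ ξ h1 h2]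
    push_cast
    rfl
  obtain ⟨ω, hω⟩ : ∃ ω : ℂ, IsPrimitiveRoot ω (r ^ 2) :=
    ⟨_, Complex.isPrimitiveRoot_exp _ ha.ne'⟩
  obtain ⟨ξ₀, hξ₀⟩ : ∃ ξ : ℂ, IsPrimitiveRoot ξ e := ⟨_, Complex.isPrimitiveRoot_exp _ he.ne'⟩
  have hdisp : ∀ ξ ∈ primitiveRoots e ℂ, disp (f ξ) = 2 * ((r : ℝ) - 1) * (s : ℝ) ^ 4 := by
    intro ξ hξ
    have h := energy hω (f ξ)
    rw [sum_congr rfl fun q hq => hmod' _ ξ (pw_primitive hω (mem_filter.1 hq).2)
      ((mem_primitiveRoots he).1 hξ), sum_const, nsmul_eq_mul, card_units_classes] at h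
    refine mul_left_cancel₀ (Nat.cast_ne_zero.2 hr.ne_zero) (h.trans ?_)
    ring
  -- the values at `ξ₀` differ from the most frequent value of their class only few times
  set bad : ZMod (r ^ 2) → ℕ :=
    fun v => ((fib r (cls r v)).filter fun w => f ξ₀ v ≠ f ξ₀ w).card with hbaddef
  have hbad : ((∑ v, bad v : ℕ) : ℝ) * e.totient ≤ e.totient * (2 * ((r : ℝ) - 1) * (s : ℝ) ^ 4) := by
    have h1 : ((∑ v, bad v : ℕ) : ℝ) * e.totient ≤
        ∑ v, ∑ w ∈ fib r (cls r v), ∑ ξ ∈ primitiveRoots e ℂ,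
          Complex.normSq (f ξ v - f ξ w) := by
      rw [Nat.cast_sum, sum_mul]
      refine sum_le_sum fun v _ => ?_
      refine le_trans ?_ (sum_le_sum_of_subset_of_nonneg
        (filter_subset (fun w => f ξ₀ v ≠ f ξ₀ w) _)
        fun w _ _ => sum_nonneg fun ξ _ => Complex.normSq_nonneg _)
      rw [hbaddef, ← nsmul_eq_mul, ← sum_const]
      refine sum_le_sum fun w hw => ?_
      simp only [hf, slice_sub]
      refine totient_le_sum_normSq he W _ _ hξ₀ ?_
      rw [← slice_sub]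
      exact sub_ne_zero.2 (mem_filter.1 hw).2
    refine h1.trans_eq ?_
    simp only [sum_comm (t := primitiveRoots e ℂ)]
    refine (sum_congr rfl hdisp).trans ?_
    rw [sum_const, nsmul_eq_mul, Complex.card_primitiveRoots]
  have hbad' : ((∑ v, bad v : ℕ) : ℝ) ≤ 2 * (r : ℝ) * (s : ℝ) ^ 4 := by
    have hφ : (0 : ℝ) < e.totient := by exact_mod_cast Nat.totient_pos.2 he
    have hs4 : (0 : ℝ) ≤ (s : ℝ) ^ 4 := by positivity
    nlinarith
  have hmaj : ∀ q : ZMod r, ∃ v ∈ fib r q, ∀ w ∈ fib r q,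
      ((fib r q).filter fun x => f ξ₀ w = f ξ₀ x).card ≤
        ((fib r q).filter fun x => f ξ₀ v = f ξ₀ x).card := fun q =>
    exists_max_image _ _ (card_pos.1 (by rw [card_fib]; exact hr.pos))
  choose mj hmj hmax using hmaj
  set S : Finset (ZMod (r ^ 2)) := univ.filter fun v => f ξ₀ v ≠ f ξ₀ (mj (cls r v)) with hSdef
  have hSbad : ∀ v ∈ S, r ≤ 2 * bad v := by
    intro v hv
    have hv' := (mem_filter.1 hv).2
    have hvq : v ∈ fib r (cls r v) := by simp [fib]
    have h1 := hmax _ v hvq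
    have hd : Disjoint ((fib r (cls r v)).filter fun x => f ξ₀ v = f ξ₀ x)
        ((fib r (cls r v)).filter fun x => f ξ₀ (mj (cls r v)) = f ξ₀ x) :=
      disjoint_left.2 fun x hx hy => hv' ((mem_filter.1 hx).2.trans (mem_filter.1 hy).2.symm)
    have h2 := card_le_card (union_subset (filter_subset (fun x => f ξ₀ v = f ξ₀ x) _)
      (filter_subset (fun x => f ξ₀ (mj (cls r v)) = f ξ₀ x) (fib r (cls r v))))
    rw [card_union_of_disjoint hd, card_fib] at h2
    have h3 := card_filter_add_card_filter_not (s := fib r (cls r v))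
      (fun x => f ξ₀ v = f ξ₀ x)
    rw [card_fib] at h3
    simp only [hbaddef, ne_eq]
    omega
  have hScard : 4 ^ S.card < r := by
    have h1 : r * S.card ≤ 2 * ∑ v, bad v := by
      rw [mul_comm, mul_sum]
      calc S.card * r = ∑ _v ∈ S, r := by simp
        _ ≤ ∑ v ∈ S, 2 * bad v := sum_le_sum hSbad
        _ ≤ _ := sum_le_sum_of_subset (subset_univ S)
    have h2 : ∑ v, bad v ≤ 2 * r * s ^ 4 := by exact_mod_cast hbad'
    have h3 : S.card ≤ 4 * s ^ 4 := by
      refine Nat.le_of_mul_le_mul_left ?_ hr.pos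
      nlinarith
    calc 4 ^ S.card ≤ 4 ^ (4 * s ^ 4) := Nat.pow_le_pow_right (by norm_num) h3
      _ = 256 ^ s ^ 4 := by rw [pow_mul]; norm_num
      _ < r := hbig
  set f' : ZMod (r ^ 2) → ℂ := fun v => f ξ₀ v - f ξ₀ (mj (cls r v)) with hf'
  have hev : ∀ ζ, IsPrimitiveRoot ζ (r ^ 2) → ev f' ζ = ev (f ξ₀) ζ := by
    intro ζ hζ
    rw [hf', ev_sub, ev_cls hζ (fun q => f ξ₀ (mj q)), sub_zero]
  have hS0 : ∀ v ∉ S, f' v = 0 := fun v hv => by
    rw [hf']; simpa [hSdef, sub_eq_zero] using hv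
  have hS1 : S.card ≤ 1 := sparse_monomial hω f' ((s : ℂ) ^ 4) S hS0
    (fun v hv => sub_ne_zero.2 (mem_filter.1 hv).2) hScard
    fun ζ hζ => by rw [hev ζ hζ]; exact hmod ζ ξ₀ hζ hξ₀
  obtain ⟨i₀, hi₀⟩ : ∃ i₀, ∀ v, v ≠ i₀ → f' v = 0 := by
    rcases Finset.eq_empty_or_nonempty S with hS | ⟨i₀, hi₀⟩
    · exact ⟨0, fun v _ => hS0 v (by simp [hS])⟩
    · exact ⟨i₀, fun v hv => hS0 v fun h => hv (card_le_one.1 hS1 v h i₀ hi₀)⟩
  set A := f' i₀ with hA
  set l := i₀.val with hl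
  have hmono : ∀ ζ, IsPrimitiveRoot ζ (r ^ 2) → ev (f ξ₀) ζ = A * ζ ^ l := by
    intro ζ hζ
    rw [← hev ζ hζ, ev, sum_eq_single i₀ (fun v _ hv => by rw [hi₀ v hv, zero_mul]) (by simp)]
    rfl
  -- the product along the orbit
  have horb : ∀ ζ, IsPrimitiveRoot ζ (r ^ 2) → A ^ r * ζ ^ (r * l) = (s : ℂ) ^ (2 * r) := by
    intro ζ hζ
    set μ := ζ ^ r with hμ
    have hμr : μ ^ r = 1 := by rw [hμ, ← pow_mul, ← pow_two, hζ.pow_eq_one]
    set z : ℕ → ℂ := fun k => ζ * μ ^ k with hz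
    have hzp : ∀ k, IsPrimitiveRoot (z k) (r ^ 2) := by
      intro k
      rw [hz, hμ]
      simp only [← pow_mul, ← pow_succ']
      refine hζ.pow_of_coprime _ (Nat.Coprime.pow_right 2 ?_)
      rw [Nat.coprime_comm]
      exact (Nat.coprime_mul_left_add_right r 1 k).2 (Nat.coprime_one_right r)
    have hnext : ∀ k, (z k) ^ (1 + r) = z (k + 1) := by
      intro k
      simp only [hz]
      rw [pow_add, pow_one, mul_pow, ← hμ, pow_right_comm μ k r, hμr, one_pow, mul_one,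
        pow_succ]
      ring
    have hprod : ∏ k ∈ range r, ((M : ℂ) * ev (f ξ₀) (z k)) = (U : ℂ) ^ r := by
      rw [prod_congr rfl fun k _ => hδ (z k) ξ₀ (hzp k) hξ₀, prod_mul_distrib]
      simp only [hnext]
      have hshift : ∏ k ∈ range r, g (z (k + 1)) ξ₀ = ∏ k ∈ range r, g (z k) ξ₀ := by
        obtain ⟨r', hr'⟩ := Nat.exists_eq_succ_of_ne_zero hr.ne_zero
        have hlast : z r = z 0 := by simp [hz, hμr]
        rw [hr'] at hlast ⊢
        rw [prod_range_succ, prod_range_succ' (fun k => g (z k) ξ₀), hlast]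
      rw [hshift, ← prod_mul_distrib, prod_congr rfl fun k _ => hU (z k) ξ₀ (hzp k) hξ₀]
      simp
    have hzl : ∏ k ∈ range r, (z k) ^ l = ζ ^ (r * l) := by
      rw [prod_pow, pow_mul]
      congr 1
      simp only [hz]
      rw [prod_mul_distrib, prod_const, card_range, prod_pow_eq_pow_sum, sum_range_id]
      obtain ⟨q, hq⟩ := hr.odd_of_ne_two hr2
      have : r * (r - 1) / 2 = r * q := by
        rw [show r - 1 = 2 * q by omega, mul_left_comm, Nat.mul_div_cancel_left _ two_pos]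
      rw [this, pow_mul μ, hμr, one_pow, mul_one]
    rw [prod_congr rfl fun k _ => by rw [hmono _ (hzp k)], prod_mul_distrib, prod_mul_distrib,
      hzl, prod_const, prod_const, card_range, hMs', mul_pow, ← pow_mul] at hprod
    exact mul_left_cancel₀ (pow_ne_zero r hMC) hprod
  have hsq : IsPrimitiveRoot (ω ^ 2) (r ^ 2) :=
    hω.pow_of_coprime 2 (Nat.Coprime.pow_right 2 ((Nat.coprime_primes Nat.prime_two hr).2 hr2.symm))
  have hs2 : (s : ℂ) ^ 2 ≠ 0 := pow_ne_zero 2 (Nat.cast_ne_zero.2 hs0)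
  have hA0 : A ≠ 0 := by
    intro h
    have := horb ω hω
    rw [h, zero_pow hr.ne_zero, zero_mul, pow_mul] at this
    exact pow_ne_zero r hs2 this.symm
  obtain ⟨l', hl'⟩ : r ∣ l := by
    have h1 := horb ω hω
    have h2 := horb (ω ^ 2) hsq
    rw [← h1, mul_right_inj' (pow_ne_zero r hA0), ← pow_mul, mul_comm 2, pow_mul, pow_two] at h2
    have h3 : ω ^ (r * l) = 1 := by
      refine mul_left_cancel₀ (pow_ne_zero (r * l) (hω.ne_zero ha.ne')) ?_
      rw [mul_one]; exact h2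
    have h4 := (hω.pow_eq_one_iff_dvd _).1 h3
    rw [pow_two] at h4
    exact Nat.dvd_of_mul_dvd_mul_left hr.pos h4
  have hAr : (A / (s : ℂ) ^ 2) ^ r = 1 := by
    have h1 := horb ω hω
    rw [hl', ← mul_assoc, ← pow_two, pow_mul ω, hω.pow_eq_one, one_pow, mul_one, pow_mul] at h1
    rw [div_pow, h1, div_self (pow_ne_zero r hs2)]
  obtain ⟨q, -, hq⟩ := (hω.pow ha (pow_two r)).eq_pow_of_pow_eq_one hAr
  have hAq : A = (s : ℂ) ^ 2 * ω ^ (r * q) := by
    rw [pow_mul, hq]; field_simp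
  have hAs : A = (s : ℂ) ^ 2 := by
    set d : ZMod (r ^ 2) × ℕ → ℤ := fun k => F k * ((if (k.1.val : ZMod (r ^ 2)) = i₀ then 1 else 0)
      - if (k.1.val : ZMod (r ^ 2)) = mj (cls r i₀) then 1 else 0) with hd
    have hAd : ∀ ζ : ℂ, A = evs W d (fun _ => 0) (fun k => k.2) ζ ξ₀ := by
      intro ζ
      rw [hA, hf', hf]
      simp only [slice_sub, evs, pow_zero, mul_one, hd]
    have he1 : evs W d (fun _ => 0) (fun k => k.2) ω ξ₀ =
        evs ({()} : Finset Unit) (fun _ => (s : ℤ) ^ 2) (fun _ => r * q) (fun _ => 0) ω ξ₀ := by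
      rw [← hAd, hAq]; simp [evs]
    have h := transfer_eq hcop ha he hω hξ₀ hsq hξ₀ he1
    rw [← hAd] at h
    simp only [evs, sum_singleton, Int.cast_pow, Int.cast_natCast, pow_zero, mul_one,
      ← pow_mul] at h
    have h2 : ω ^ (r * q) = ω ^ (r * q) * ω ^ (r * q) := by
      rw [← pow_add, ← two_mul]
      exact mul_left_cancel₀ hs2 (hAq.symm.trans h)
    have h3 : ω ^ (r * q) = 1 :=
      mul_left_cancel₀ (pow_ne_zero _ (hω.ne_zero ha.ne')) (h2.symm.trans (mul_one _).symm)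
    rw [hAq, h3, mul_one]
  have hrel : ∀ ζ, IsPrimitiveRoot ζ (r ^ 2) → g (ζ ^ (1 + r)) ξ₀ = ζ ^ l * g ζ ξ₀ := by
    intro ζ hζ
    have h := hδ ζ ξ₀ hζ hξ₀
    rw [hmono ζ hζ, hAs, ← mul_assoc, ← hMs'] at h
    have h2 : g ζ ξ₀ * conj (g ζ ξ₀) = (U : ℂ) := hU ζ ξ₀ hζ hξ₀
    have hUC : (U : ℂ) ≠ 0 := Nat.cast_ne_zero.2 hU0
    refine mul_left_cancel₀ hUC ?_
    linear_combination (-(g (ζ ^ (1 + r)) ξ₀)) * h2 - g ζ ξ₀ * h
  -- the coefficients are periodic on the other classes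
  set G : ZMod (r ^ 2) → ℂ := slice T c i j ξ₀ with hG
  set rr : ZMod (r ^ 2) := (r : ZMod (r ^ 2)) with hrr
  have hrr2 : rr * rr = 0 := by rw [hrr, ← Nat.cast_mul, ← pow_two, ZMod.natCast_self]
  have hrr0 : cls r rr = 0 := by simp [hrr]
  set p : ZMod (r ^ 2) := (l' : ZMod (r ^ 2)) with hp
  have hlp : (l : ZMod (r ^ 2)) = rr * p := by rw [hl', Nat.cast_mul]
  have hconst : ∀ v w : ZMod (r ^ 2), cls r v = cls r w →
      G ((1 - rr) * v) - G (v - rr * p) = G ((1 - rr) * w) - G (w - rr * p) := by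
    intro v w hvw
    refine const_of_ev_eq_zero (f := fun x => G ((1 - rr) * x) - G (x - rr * p)) hω
      (fun ζ hζ => ?_) hvw
    have h1 := hζ.pow_eq_one
    rw [ev_sub, ev_translate h1 G (rr * p), ← hlp, pw_natCast h1, hG,
      ev_slice T c i j h1, sub_eq_zero]
    refine Eq.trans ?_ (hrel ζ hζ)
    simp only [hg]
    rw [← ev_slice (a := r ^ 2) T c i j (hprim hζ).pow_eq_one]
    simp only [ev]
    let φ : ZMod (r ^ 2) ≃ ZMod (r ^ 2) :=
      { toFun := fun x => (1 + rr) * x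
        invFun := fun x => (1 - rr) * x
        left_inv := fun x => by linear_combination (-x) * hrr2
        right_inv := fun x => by linear_combination (-x) * hrr2 }
    refine (Equiv.sum_comp φ _).symm.trans (sum_congr rfl fun x _ => ?_)
    simp only [φ, Equiv.coe_fn_mk]
    rw [show (1 - rr) * ((1 + rr) * x) = x by linear_combination (-x) * hrr2,
      show (1 + rr) = (((1 + r : ℕ)) : ZMod (r ^ 2)) by simp [hrr], pw_mul h1, pw_natCast h1]
  refine ⟨cls r p, fun ξ hξ v w hvw hv => ?_⟩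
  have key : G v = G w := by
    set δ := rr * (p - v) with hδdef
    have hδ0 : cls r δ = 0 := by rw [hδdef, map_mul, hrr0, zero_mul]
    have hshiftδ : ∀ x, cls r x = cls r v → rr * x = rr * v := by
      intro x hx
      obtain ⟨k, hk⟩ := exists_lift (d := x - v) (by rw [map_sub, hx, sub_self])
      have : rr * lift k = 0 := by
        rw [lift, Nat.cast_mul, ← mul_assoc, ← hrr, hrr2, zero_mul]
      linear_combination this + rr * hk
    have hstep : ∀ x, cls r x = cls r v →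
        G (x + δ) - G x = G (v + δ) - G v := by
      intro x hx
      have h := hconst (x + rr * p) (v + rr * p) (by simp [hx, hrr0])
      rw [add_sub_cancel_right, add_sub_cancel_right] at h
      have e1 : ∀ y, rr * y = rr * v → (1 - rr) * (y + rr * p) = y + δ := fun y hy => by
        rw [hδdef]; linear_combination (-p) * hrr2 - hy
      rw [e1 x (hshiftδ x hx), e1 v rfl] at h
      exact h
    have hzero : G (v + δ) - G v = 0 := by
      have hperm : ∑ x ∈ fib r (cls r v), G (x + δ) = ∑ x ∈ fib r (cls r v), G x :=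
        sum_nbij' (fun x => x + δ) (fun x => x - δ)
          (by simp [fib, hδ0]) (by simp [fib, hδ0]) (by simp) (by simp) (by simp)
      have h : ∑ x ∈ fib r (cls r v), (G (x + δ) - G x) = 0 := by
        rw [sum_sub_distrib, hperm, sub_self]
      rw [sum_congr (s₁ := fib r (cls r v)) rfl fun x hx => hstep x (mem_filter.1 hx).2, sum_const,
        card_fib, nsmul_eq_mul, mul_eq_zero] at h
      exact h.resolve_left (Nat.cast_ne_zero.2 hr.ne_zero)
    have hper : ∀ k : ℕ, G (v + k • δ) = G v := by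
      intro k
      induction k with
      | zero => simp
      | succ k ih =>
        have h := hstep (v + k • δ) (by simp [hδ0])
        rw [hzero, sub_eq_zero] at h
        rw [succ_nsmul, ← add_assoc, h, ih]
    obtain ⟨k, hk⟩ := exists_lift (d := w - v) (by rw [map_sub, hvw, sub_self])
    have hu : cls r (p - v) ≠ 0 := by rw [map_sub, sub_ne_zero]; exact fun h => hv h.symm
    set x := ((k / cls r (p - v)).val : ℕ) with hx
    have hcls : ((x * (p - v).val : ℕ) : ZMod r) = k := by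
      have e1 : ((p - v).val : ZMod r) = cls r (p - v) := by
        rw [← map_natCast (cls r), ZMod.natCast_val, ZMod.cast_id]
      rw [Nat.cast_mul, hx, ZMod.natCast_val, ZMod.cast_id, e1, div_mul_cancel₀ k hu]
    have hw : w = v + x • δ := by
      have h1 : lift k = (rr * ((x * (p - v).val : ℕ) : ZMod (r ^ 2))) := by
        rw [lift, hrr, ← Nat.cast_mul, ZMod.natCast_eq_natCast_iff]
        refine Nat.ModEq.of_dvd (dvd_of_eq (pow_two r)) (Nat.ModEq.mul_left' r ?_)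
        rw [← ZMod.natCast_eq_natCast_iff, hcls, ZMod.natCast_val, ZMod.cast_id]
      rw [nsmul_eq_mul, hδdef]
      rw [h1, Nat.cast_mul, ZMod.natCast_zmod_val] at hk
      linear_combination hk
    rw [hw, hper]
  rw [hG, ← sub_eq_zero, slice_sub] at key
  rw [← sub_eq_zero, slice_sub]
  exact transfer_one he hξ₀ hξ T _ j key

/-- Parseval on residues. -/
theorem sum_normSq_ev {m : ℕ} [NeZero m] {ω : ℂ} (hω : IsPrimitiveRoot ω m) (b : ZMod m → ℂ) :
    ∑ j : ZMod m, Complex.normSq (ev b (pw ω j)) = (m : ℝ) * ∑ y, Complex.normSq (b y) := by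
  apply Complex.ofReal_injective
  push_cast
  simp only [← Complex.mul_conj]
  have hj : ∀ j : ZMod m, (pw ω j) ^ m = 1 := fun j => by
    rw [pw, ← pow_mul, mul_comm, pow_mul, hω.pow_eq_one, one_pow]
  rw [sum_congr rfl fun j _ => ev_mul_conj (hj j) b]
  simp only [ev]
  rw [sum_comm, sum_eq_single 0 (fun d _ hd => ?_) (by simp), mul_sum]
  · simp [pw_zero, mul_sum]
  · rw [← mul_sum]
    refine mul_eq_zero_of_right _ ?_
    have hne : pw ω d ≠ 1 := fun h => hd ((ZMod.val_eq_zero d).1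
      (Nat.eq_zero_of_dvd_of_lt ((hω.pow_eq_one_iff_dvd d.val).1 h) (ZMod.val_lt d)))
    have hs : pw ω d * ∑ j : ZMod m, pw (pw ω j) d = ∑ j : ZMod m, pw (pw ω j) d := by
      rw [mul_sum]
      refine Eq.trans (sum_congr rfl fun j _ => ?_)
        (Equiv.sum_comp (Equiv.addRight 1) fun j => pw (pw ω j) d)
      rw [Equiv.coe_addRight, ← pw_mul hω.pow_eq_one, ← pw_mul hω.pow_eq_one, add_mul, one_mul,
        pw_add hω.pow_eq_one, mul_comm]
    rcases mul_left_eq_self₀.1 hs with h | h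
    · exact absurd h hne
    · exact h

theorem exists_frobenius {r : ℕ} [Fact r.Prime] {p e' : ℕ} (hpr : p.Coprime r)
    (hpe : p.Coprime e') (hnw : ((p : ZMod (r ^ 2))) ^ (r - 1) ≠ 1) (hre : ¬ r ∣ e'.totient) :
    ∃ L : ℕ, (p : ZMod (r ^ 2)) ^ L = 1 + (r : ZMod (r ^ 2)) ∧ (p : ZMod e') ^ L = 1 := by
  have hcls : cls r ((p : ZMod (r ^ 2)) ^ (r - 1) - 1) = 0 := by
    rw [map_sub, map_pow, map_natCast, map_one, ZMod.pow_card_sub_one_eq_one, sub_self]
    rw [Ne, ZMod.natCast_eq_zero_iff]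
    exact ((Fact.out : r.Prime).coprime_iff_not_dvd.1 hpr.symm)
  obtain ⟨k, hk⟩ := exists_lift hcls
  have hk0 : k ≠ 0 := by
    rintro rfl
    refine hnw (sub_eq_zero.1 (hk.trans ?_))
    simp [lift]
  have hD : ((e'.totient : ZMod r)) ≠ 0 := by rwa [Ne, ZMod.natCast_eq_zero_iff]
  set j := ((k * (e'.totient : ZMod r))⁻¹).val with hj
  refine ⟨(r - 1) * (e'.totient * j), ?_, ?_⟩
  · have hpow : ∀ N : ℕ, (1 + lift k) ^ N = 1 + (N : ZMod (r ^ 2)) * lift k := by
      intro N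
      induction N with
      | zero => simp
      | succ N ih =>
        have h0 : lift k * lift k = (0 : ZMod (r ^ 2)) := by
          rw [lift, ← Nat.cast_mul, ZMod.natCast_eq_zero_iff]
          exact ⟨k.val * k.val, by ring⟩
        rw [pow_succ _ N, ih]
        push_cast
        linear_combination (N : ZMod (r ^ 2)) * h0
    rw [pow_mul, sub_eq_iff_eq_add'.1 hk, hpow, lift, ← Nat.cast_mul,
      add_right_inj, ZMod.natCast_eq_natCast_iff, show e'.totient * j * (r * k.val) =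
        r * (e'.totient * j * k.val) by ring]
    refine Nat.ModEq.of_dvd (dvd_of_eq (pow_two r)) ?_
    conv_rhs => rw [← mul_one r]
    refine Nat.ModEq.mul_left' r ?_
    rw [← ZMod.natCast_eq_natCast_iff, Nat.cast_mul, Nat.cast_mul, hj, ZMod.natCast_val,
      ZMod.cast_id, ZMod.natCast_val, ZMod.cast_id, Nat.cast_one]
    field_simp
  · rw [mul_comm, mul_assoc, pow_mul]
    have h : (p : ZMod e') ^ e'.totient = 1 := by
      rw [← ZMod.coe_unitOfCoprime p hpe, ← Units.val_pow_eq_pow_val, ZMod.pow_totient,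
        Units.val_one]
    rw [h, one_pow]

/-- A prime exactly dividing `u`, large against the part of `u` whose primes are badly behaved,
excludes a circulant Hadamard matrix of order `4 u ^ 2`. -/
theorem no_circulant {r g s : ℕ} (hr : r.Prime) (hr2 : r ≠ 2) (hg : 0 < g) (hs : 0 < s)
    (hrw : ¬ r ∣ g * s) (hφ : ¬ r ∣ (4 * (g * s) ^ 2).totient)
    (hgood : ∀ p : ℕ, p.Prime → p ∣ g → ((p : ZMod (r ^ 2))) ^ (r - 1) ≠ 1)
    (hbig : 256 ^ s ^ 4 < r) (hτ : 2 * (4 * (g * s) ^ 2).divisors.card + 1 < r)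
    {n : ℕ} (hn : n = 4 * (r * (g * s)) ^ 2) (h : ℕ → ℤ)
    (hsign : ∀ k, k < n → h k = 1 ∨ h k = -1)
    (hcorr : ∀ t, 1 ≤ t → t < n → ∑ k ∈ range n, h k * h ((k + t) % n) = 0) : False := by
  classical
  have := Fact.mk hr
  set w := g * s with hw
  set m := 4 * w ^ 2 with hm
  have hw0 : 0 < w := Nat.mul_pos hg hs
  have hm0 : 0 < m := by positivity
  have hnm : n = r ^ 2 * m := by rw [hn, hm]; ring
  have hn0 : 0 < n := by rw [hnm]; exact Nat.mul_pos (pow_pos hr.pos 2) hm0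
  have : NeZero n := ⟨hn0.ne'⟩
  have : NeZero m := ⟨hm0.ne'⟩
  have hrm : ¬ r ∣ m := by
    intro hd
    rcases (Nat.Prime.dvd_mul hr).1 hd with h4 | h4
    · have := (Nat.prime_dvd_prime_iff_eq hr Nat.prime_two).1
        (hr.dvd_of_dvd_pow (show r ∣ 2 ^ 2 by simpa using h4))
      exact hr2 this
    · exact hrw (hr.dvd_of_dvd_pow h4)
  have hrcop : r.Coprime m := hr.coprime_iff_not_dvd.2 hrm
  -- the indicator of the negative entries
  let A : ZMod n → ℤ := fun v => if h v.val = 1 then 0 else 1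
  have hh : ∀ v : ZMod n, h v.val = 1 - 2 * A v := by
    intro v
    rcases hsign v.val (ZMod.val_lt v) with q | q <;> simp [A, q]
  set u := r * w with hu
  have hU : ∀ e, e ∣ m → ∀ ζ ξ : ℂ, IsPrimitiveRoot ζ (r ^ 2) → IsPrimitiveRoot ξ e →
      evs univ A ZMod.val ZMod.val ζ ξ * conj (evs univ A ZMod.val ZMod.val ζ ξ) =
        ((u ^ 2 : ℕ) : ℂ) := by
    intro e he ζ ξ hζ hξ
    set Z := ζ * ξ with hZ
    have hZn : Z ^ n = 1 := by
      rw [hZ, mul_pow, hnm]
      obtain ⟨q, hq⟩ := he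
      rw [pow_mul ζ, hζ.pow_eq_one, one_pow, one_mul, hq, mul_comm, mul_assoc, pow_mul,
        hξ.pow_eq_one, one_pow]
    have hZ1 : Z ≠ 1 := by
      intro h1
      have h2 : ζ ^ e = 1 := by
        have := congrArg (fun x => x ^ e) h1
        simpa [hZ, mul_pow, hξ.pow_eq_one] using this
      have h3 := (hζ.pow_eq_one_iff_dvd e).1 h2
      exact hrm ((dvd_pow_self r two_ne_zero).trans (h3.trans he))
    have hev : evs univ A ZMod.val ZMod.val ζ ξ = ev (fun v => (A v : ℂ)) Z := by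
      refine sum_congr rfl fun v _ => ?_
      rw [pw, hZ, mul_pow]; ring
    have hone : ev (fun _ : ZMod n => (1 : ℂ)) Z = 0 := by
      have h1 := ev_translate hZn (fun _ : ZMod n => (1 : ℂ)) 1
      rw [show pw Z (1 : ZMod n) = Z by simpa using pw_natCast hZn 1] at h1
      rcases mul_left_eq_self₀.1 h1.symm with q | q
      · exact absurd q hZ1
      · simpa using q
    have hhev : ev (fun v : ZMod n => (h v.val : ℂ)) Z = -2 * ev (fun v => (A v : ℂ)) Z := by
      rw [show (fun v : ZMod n => (h v.val : ℂ)) = fun v => 1 - 2 * (A v : ℂ) by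
        funext v; rw [hh v]; push_cast; ring, ev_sub, hone, ev, ev, mul_sum, zero_sub,
        ← sum_neg_distrib]
      exact sum_congr rfl fun v _ => by ring
    have hH := ev_mul_conj hZn (fun v : ZMod n => (h v.val : ℂ))
    have hac : (fun d : ZMod n => ∑ v : ZMod n, (h (v + d).val : ℂ) * conj (h v.val : ℂ)) =
        fun d => if d = 0 then (n : ℂ) else 0 := by
      funext d
      simp only [map_intCast]
      split_ifs with hd
      · subst hd
        have h1 : ∀ v : ZMod n, (h (v + 0).val : ℂ) * (h v.val : ℂ) = 1 := fun v => by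
          rw [add_zero]
          rcases hsign v.val (ZMod.val_lt v) with q | q <;> simp [q]
        rw [sum_congr rfl fun v _ => h1 v]
        simp
      · have h1 := hcorr d.val (Nat.pos_of_ne_zero fun q => hd ((ZMod.val_eq_zero d).1 q))
          (ZMod.val_lt d)
        rw [← Int.cast_zero (R := ℂ), ← h1, Int.cast_sum]
        refine sum_nbij' ZMod.val (fun k => (k : ZMod n)) (fun v _ => mem_range.2 (ZMod.val_lt v))
          (fun k _ => mem_univ _) (fun v _ => ZMod.natCast_zmod_val v)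
          (fun k hk => ZMod.val_cast_of_lt (mem_range.1 hk)) fun v _ => ?_
        rw [ZMod.val_add, Int.cast_mul, mul_comm]
    rw [hac, hhev, map_mul] at hH
    simp only [map_neg, map_ofNat] at hH
    have hcorr0 : ev (fun d : ZMod n => if d = 0 then (n : ℂ) else 0) Z = n := by
      simp [ev, pw_zero]
    rw [hcorr0] at hH
    have hnC : (n : ℂ) = 4 * ((u ^ 2 : ℕ) : ℂ) := by rw [hn, hu]; push_cast; ring
    rw [hev]
    linear_combination (1 / 4 : ℂ) * hH + (1 / 4 : ℂ) * hnC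
  -- the classes
  have hC : ∀ e, e ∣ m → ∃ c₀ : ZMod r, ∀ ξ : ℂ, IsPrimitiveRoot ξ e → ∀ v w : ZMod (r ^ 2),
      cls r v = cls r w → cls r v ≠ c₀ →
        slice univ A ZMod.val ZMod.val ξ v = slice univ A ZMod.val ZMod.val ξ w := by
    intro e he
    have he0 : 0 < e := Nat.pos_of_dvd_of_pos he hm0
    refine classes_const hr hr2 he0 ((hrcop.pow_left 2).coprime_dvd_right he) univ A _ _
      ((r * g) ^ 2) s (u ^ 2) (pow_ne_zero 2 (Nat.mul_pos hr.pos hw0).ne') ?_ hbig (hU e he) ?_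
    · rw [hu, hw]; ring
    · intro p hp hpd
      rcases (Nat.Prime.dvd_mul hp).1 (hp.dvd_of_dvd_pow hpd) with hpr | hpg
      · obtain rfl := (Nat.prime_dvd_prime_iff_eq hp hr).1 hpr
        exact ⟨0, 2, e, rfl, fun t _ h2 => by rwa [pow_zero]⟩
      · obtain ⟨k, e', he', hee⟩ := Nat.exists_eq_pow_mul_and_not_dvd he0.ne' p hp.ne_one
        have hpr : p.Coprime r :=
          (Nat.coprime_primes hp hr).2 (fun q => hrw (q ▸ hpg.mul_right s))
        have he'm : e' ∣ m := (Dvd.intro_left _ hee.symm).trans he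
        obtain ⟨L, hL1, hL2⟩ := exists_frobenius hpr (hp.coprime_iff_not_dvd.2 he')
          (hgood p hp hpg) fun q => hφ (q.trans (Nat.totient_dvd_of_dvd he'm))
        refine ⟨L, k, r ^ 2 * e', by rw [hee]; ring, fun t ht1 ht2 => ?_⟩
        rw [← Nat.modEq_and_modEq_iff_modEq_mul ((hrcop.pow_left 2).coprime_dvd_right he'm)]
        refine ⟨ht1.trans ?_, (Nat.ModEq.of_dvd (Dvd.intro_left _ hee.symm) ht2).trans ?_⟩
        · rw [← ZMod.natCast_eq_natCast_iff]; push_cast; exact hL1.symm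
        · rw [← ZMod.natCast_eq_natCast_iff]; push_cast; exact hL2.symm
  choose C hC using hC
  obtain ⟨ξ₀, hξ₀⟩ : ∃ ξ : ℂ, IsPrimitiveRoot ξ m := ⟨_, Complex.isPrimitiveRoot_exp _ hm0.ne'⟩
  obtain ⟨ω, hω⟩ : ∃ ω : ℂ, IsPrimitiveRoot ω (r ^ 2) :=
    ⟨_, Complex.isPrimitiveRoot_exp _ (pow_ne_zero 2 hr.ne_zero)⟩
  have hdvd : ∀ j : ZMod m, orderOf (pw ξ₀ j) ∣ m := fun j => by
    rw [orderOf_dvd_iff_pow_eq_one, pw, ← pow_mul, mul_comm, pow_mul, hξ₀.pow_eq_one, one_pow]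
  set cl : ZMod m → ZMod r := fun j => C (orderOf (pw ξ₀ j)) (hdvd j) with hcl
  set E : Finset (ZMod r) := univ.image cl with hE
  have hEcard : E.card ≤ m.divisors.card := by
    have : E ⊆ m.divisors.attach.image fun e => C e.1 (Nat.dvd_of_mem_divisors e.2) := by
      intro q hq
      obtain ⟨j, -, rfl⟩ := mem_image.1 hq
      exact mem_image.2 ⟨⟨_, Nat.mem_divisors.2 ⟨hdvd j, hm0.ne'⟩⟩, mem_attach _ _, rfl⟩
    exact (card_le_card this).trans (card_image_le.trans card_attach.le)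
  set G : ZMod m → ZMod (r ^ 2) → ℂ :=
    fun j => slice univ A ZMod.val ZMod.val (pw ξ₀ j) with hG
  have hdispG : ∀ j, disp (G j) = 2 * ((r : ℝ) - 1) * ((u : ℝ) ^ 2) := by
    intro j
    have h := energy hω (G j)
    have hval : ∀ q ∈ univ.filter (fun q => cls r q ≠ 0),
        Complex.normSq (ev (G j) (pw ω q)) = (u : ℝ) ^ 2 := by
      intro q hq
      have hp := pw_primitive hω (mem_filter.1 hq).2
      apply Complex.ofReal_injective
      rw [← Complex.mul_conj, hG]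
      simp only [ev_slice _ _ _ _ hp.pow_eq_one]
      rw [hU _ (hdvd j) _ _ hp (IsPrimitiveRoot.orderOf _)]
      push_cast
      rfl
    rw [sum_congr rfl hval, sum_const, nsmul_eq_mul, card_units_classes] at h
    refine mul_left_cancel₀ (Nat.cast_ne_zero.2 hr.ne_zero) (h.trans ?_)
    ring
  have hle : ∀ j, disp (G j) ≤
      ∑ q ∈ E, ∑ v ∈ fib r q, ∑ x ∈ fib r q, Complex.normSq (G j v - G j x) := by
    intro j
    refine le_trans (le_of_eq ?_) (single_le_sum (f := fun q =>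
      ∑ v ∈ fib r q, ∑ x ∈ fib r q, Complex.normSq (G j v - G j x))
      (fun q _ => sum_nonneg fun v _ => sum_nonneg fun x _ => Complex.normSq_nonneg _)
      (mem_image_of_mem cl (mem_univ j)))
    rw [disp, fib, sum_filter]
    refine sum_congr rfl fun v _ => ?_
    split_ifs with hv
    · rw [hv]; rfl
    · refine sum_eq_zero fun x hx => ?_
      simp only [hG]
      rw [hC _ (hdvd j) _ (IsPrimitiveRoot.orderOf _) v x (mem_filter.1 hx).2.symm hv,
        sub_self, map_zero]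
  have hpair : ∀ v x : ZMod (r ^ 2),
      ∑ j, Complex.normSq (G j v - G j x) ≤ (m : ℝ) * m := by
    intro v x
    set B : ZMod (r ^ 2) → ZMod m → ℤ := fun q y =>
      ∑ k ∈ univ.filter (fun k : ZMod n => ((k.val : ℕ) : ZMod (r ^ 2)) = q ∧
        ((k.val : ℕ) : ZMod m) = y), A k with hB
    have hB01 : ∀ q y, 0 ≤ B q y ∧ B q y ≤ 1 := by
      intro q y
      have hA01 : ∀ k, 0 ≤ A k ∧ A k ≤ 1 := fun k => by simp only [A]; split_ifs <;> simp
      refine ⟨sum_nonneg fun k _ => (hA01 k).1, ?_⟩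
      refine (sum_le_sum fun k _ => (hA01 k).2).trans ?_
      rw [sum_const, nsmul_eq_mul, mul_one, Nat.cast_le_one, card_le_one]
      intro a ha b hb
      obtain ⟨a1, a2⟩ := (mem_filter.1 ha).2
      obtain ⟨b1, b2⟩ := (mem_filter.1 hb).2
      rw [← b1, ZMod.natCast_eq_natCast_iff] at a1
      rw [← b2, ZMod.natCast_eq_natCast_iff] at a2
      have h12 := (Nat.modEq_and_modEq_iff_modEq_mul (hrcop.pow_left 2)).1 ⟨a1, a2⟩
      rw [← hnm] at h12
      exact ZMod.val_injective n (Nat.ModEq.eq_of_lt_of_lt h12 (ZMod.val_lt a) (ZMod.val_lt b))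
    have hGev : ∀ j q, G j q = ev (fun y => (B q y : ℂ)) (pw ξ₀ j) := by
      intro j q
      have hj : (pw ξ₀ j) ^ m = 1 := by
        rw [pw, ← pow_mul, mul_comm, pow_mul, hξ₀.pow_eq_one, one_pow]
      simp only [hG, slice, ev, hB, Int.cast_sum, sum_mul, sum_filter, ite_and]
      rw [sum_comm]
      refine sum_congr rfl fun k _ => ?_
      split_ifs with hk
      · simp only [Int.cast_ite, Int.cast_zero, ite_mul, zero_mul, sum_ite_eq, mem_univ, if_pos,
          pw_natCast hj]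
      · simp
    simp only [hGev, ← ev_sub]
    rw [sum_normSq_ev hξ₀]
    refine mul_le_mul_of_nonneg_left ?_ (Nat.cast_nonneg m)
    refine (sum_le_sum fun y _ => ?_).trans (by rw [sum_const, card_univ, ZMod.card, nsmul_eq_mul,
      mul_one])
    rw [show ((B v y : ℂ) - (B x y : ℂ)) = ((B v y - B x y : ℤ) : ℂ) by push_cast; ring,
      Complex.normSq_intCast]
    have h1 := hB01 v y; have h2 := hB01 x y
    have : (B v y - B x y) * (B v y - B x y) ≤ 1 := by nlinarith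
    exact_mod_cast this
  have hmain : (m : ℝ) * (2 * ((r : ℝ) - 1) * ((u : ℝ) ^ 2)) ≤
      (E.card : ℝ) * ((r : ℝ) * r * (m * m)) := by
    calc (m : ℝ) * (2 * ((r : ℝ) - 1) * ((u : ℝ) ^ 2)) = ∑ j, disp (G j) := by
          rw [sum_congr rfl fun j _ => hdispG j, sum_const, card_univ, ZMod.card, nsmul_eq_mul]
      _ ≤ ∑ j, ∑ q ∈ E, ∑ v ∈ fib r q, ∑ x ∈ fib r q, Complex.normSq (G j v - G j x) :=
          sum_le_sum fun j _ => hle j
      _ = ∑ q ∈ E, ∑ v ∈ fib r q, ∑ x ∈ fib r q, ∑ j, Complex.normSq (G j v - G j x) := by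
          rw [sum_comm]
          refine sum_congr rfl fun q _ => ?_
          rw [sum_comm]
          refine sum_congr rfl fun v _ => ?_
          rw [sum_comm]
      _ ≤ ∑ q ∈ E, ∑ _v ∈ fib r q, ∑ _x ∈ fib r q, (m : ℝ) * m :=
          sum_le_sum fun q _ => sum_le_sum fun v _ => sum_le_sum fun x _ => hpair v x
      _ = _ := by simp only [sum_const, card_fib, nsmul_eq_mul]; ring
  have hu2 : 4 * (u : ℝ) ^ 2 = (r : ℝ) ^ 2 * m := by rw [hu, hm]; push_cast; ring
  have hτ' : 2 * (m.divisors.card : ℝ) + 1 < r := by exact_mod_cast hτ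
  have hE' : (E.card : ℝ) ≤ m.divisors.card := by exact_mod_cast hEcard
  have hpos : (0 : ℝ) < (r : ℝ) ^ 2 * (m : ℝ) ^ 2 := by
    have h1 : (0 : ℝ) < r := Nat.cast_pos.2 hr.pos
    have h2 : (0 : ℝ) < m := Nat.cast_pos.2 hm0
    positivity
  have e : (m : ℝ) * (2 * ((r : ℝ) - 1) * ((u : ℝ) ^ 2)) =
      (((r : ℝ) - 1) / 2) * ((r : ℝ) ^ 2 * (m : ℝ) ^ 2) := by
    linear_combination ((m : ℝ) * ((r : ℝ) - 1) / 2) * hu2
  have hlast : ((r : ℝ) - 1) / 2 ≤ E.card := by
    refine le_of_mul_le_mul_right ?_ hpos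
    linarith [e, hmain, show (E.card : ℝ) * ((r : ℝ) * r * (m * m)) =
      (E.card : ℝ) * ((r : ℝ) ^ 2 * (m : ℝ) ^ 2) by ring]
  linarith

end Vale.Agent.P033
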