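import Vale.Agent.P033.CountSets

/-!
The exceptions coming from the range of the large prime.
-/

open Finset Real Filter

namespace Vale.Agent.P033

/-- The primes up to `X` with logarithm in `(a, b]`. -/
noncomputable def primeRange (X : ℕ) (a b : ℝ) : Finset ℕ :=
  (range (X + 1)).filter fun r : ℕ => r.Prime ∧ a < log r ∧ log (r : ℝ) ≤ b

theorem mem_primeRange {X : ℕ} {a b : ℝ} {r : ℕ} :
    r ∈ primeRange X a b ↔ r ≤ X ∧ r.Prime ∧ a < log r ∧ log (r : ℝ) ≤ b := by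
  simp [primeRange]

theorem eventually_poly (c : ℝ) (k : ℕ) : ∃ K : ℝ, ∀ z : ℝ, K ≤ z → c * z ^ k ≤ exp z := by
  obtain ⟨K, hK⟩ := eventually_atTop.1 ((tendsto_exp_div_pow_atTop k).eventually_ge_atTop c)
  refine ⟨max K 1, fun z hz => ?_⟩
  have h := hK z ((le_max_left _ _).trans hz)
  have hz0 : 0 < z := lt_of_lt_of_le one_pos ((le_max_right _ _).trans hz)
  rwa [le_div_iff₀ (pow_pos hz0 k)] at h

/-- The mass of the bad primes is small once `z` is large. -/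
theorem mass_bound {δ C z m cE : ℝ} {E X : ℕ} (hδ0 : 0 < δ) (hC0 : 0 ≤ C) (hE0 : 0 < E)
    (hz1 : 1 ≤ z) (hzsq : (768 * (4 * E + C) / δ) ^ 2 ≤ z) (hm0 : 0 ≤ m)
    (hmb : m ≤ (E : ℝ) * (1 + log z) + 1 + C)
    (hlogXz : 1 + log (X : ℝ) ≤ cE * z ^ E) (hcE0 : 0 ≤ cE)
    (hpoly : ((32 * cE / δ * (1 + 2 * E + C)) ^ 2 * 2 + 2) * z ^ (2 * E + 3) ≤ exp z) :
    (768 / z + 32 * (log X + 1) / Real.sqrt (exp z)) * m ≤ 2 * δ := by
  have hl0 : 0 ≤ log z := log_nonneg hz1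
  have hE1 : (1 : ℝ) ≤ E := by exact_mod_cast hE0
  have hlz : log z ≤ z := log_le_self (by linarith)
  have hy1 : (1 : ℝ) ≤ z := hz1
  rw [add_mul, show 2 * δ = δ + δ by ring]
  refine add_le_add ?_ ?_
  · have hsz : log z ≤ 2 * Real.sqrt z := by
      have := log_le_self (Real.sqrt_nonneg z)
      rw [log_sqrt (by linarith)] at this
      linarith
    have hs1 : 1 ≤ Real.sqrt z := one_le_sqrt.2 (by linarith)
    have hmb' : m ≤ (3 * E + C) * Real.sqrt z + Real.sqrt z := by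
      have := mul_le_mul_of_nonneg_left hsz (by linarith : (0 : ℝ) ≤ E)
      have := le_mul_of_one_le_right (by linarith : (0 : ℝ) ≤ E) hs1
      have := le_mul_of_one_le_right hC0 hs1
      linarith
    have hq : 768 * (4 * E + C) / δ ≤ Real.sqrt z :=
      Real.le_sqrt_of_sq_le hzsq
    rw [div_mul_eq_mul_div, div_le_iff₀ (by linarith)]
    rw [div_le_iff₀ hδ0] at hq
    have hsq : Real.sqrt z * Real.sqrt z = z := Real.mul_self_sqrt (by linarith)
    have hmb'' : m ≤ (4 * E + C) * Real.sqrt z := by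
      have := le_mul_of_one_le_left (show (0 : ℝ) ≤ Real.sqrt z by positivity) hE1
      linarith
    have := mul_le_mul_of_nonneg_right hq (Real.sqrt_nonneg z)
    rw [show Real.sqrt z * δ * Real.sqrt z = δ * z by rw [mul_right_comm, hsq, mul_comm]] at this
    linarith [mul_le_mul_of_nonneg_left hmb'' (show (0 : ℝ) ≤ 768 by norm_num)]
  · rw [div_mul_eq_mul_div, div_le_iff₀ (Real.sqrt_pos.2 (exp_pos z))]
    have hmz : m ≤ (1 + 2 * E + C) * z := by
      have := mul_le_mul_of_nonneg_left hlz (by linarith : (0 : ℝ) ≤ E)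
      have := le_mul_of_one_le_right (by linarith : (0 : ℝ) ≤ E) hz1
      have := le_mul_of_one_le_right hC0 hz1
      linarith
    have hX' : log (X : ℝ) + 1 ≤ cE * z ^ E := by linarith
    have h1 : 32 * (log (X : ℝ) + 1) * m ≤ δ * (32 * cE / δ * (1 + 2 * E + C) * z ^ (E + 1)) := by
      have e : δ * (32 * cE / δ * (1 + 2 * E + C) * z ^ (E + 1)) =
          32 * (cE * z ^ E) * ((1 + 2 * E + C) * z) := by
        field_simp; ring
      rw [e]
      exact mul_le_mul (by linarith) hmz hm0 (by positivity)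
    refine h1.trans (mul_le_mul_of_nonneg_left (Real.le_sqrt_of_sq_le ?_) hδ0.le)
    refine le_trans ?_ hpoly
    rw [mul_pow, ← pow_mul]
    refine mul_le_mul ?_ (pow_le_pow_right₀ (by linarith) (by omega)) (by positivity)
      (by positivity)
    have := sq_nonneg (32 * cE / δ * (1 + 2 * E + C))
    linarith

open scoped Classical in
/-- Square, congruence, bad prime and divisor exceptions are rare. -/
theorem range_small {δ C : ℝ} (hδ0 : 0 < δ) (hC : P031.MertensWith C) (E j : ℕ) (hE0 : 0 < E)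
    (hj1 : 1 ≤ j) : ∃ K : ℝ, ∀ X Z₀ y : ℕ, K ≤ (Z₀ : ℝ) → 1 ≤ X → (Z₀ : ℝ) ≤ (y : ℝ) →
      (y : ℝ) ≤ (2 * (Z₀ : ℝ)) ^ E → 1 + log (X : ℝ) ≤ 7 * 2 ^ E * (Z₀ : ℝ) ^ E →
      (((Icc 1 X).filter fun u => ∃ r ∈ primeRange X ((Z₀ : ℝ) ^ j) y, r * r ∣ u).card : ℝ)
          ≤ δ * X ∧
      (((Icc 1 X).filter fun u => ∃ r ∈ primeRange X ((Z₀ : ℝ) ^ j) y,
        r ∣ u ∧ ∃ l ∈ u.primeFactors, r ∣ l - 1).card : ℝ) ≤ δ * X ∧
      (((Icc 1 X).filter fun u => ∃ r ∈ primeRange X ((Z₀ : ℝ) ^ j) y, r ∣ u ∧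
        ∃ q ∈ u.primeFactors, q ≠ r ∧ log (r : ℝ) ^ 8 < q ∧
          (q : ZMod (r ^ 2)) ^ (r - 1) = 1).card : ℝ) ≤ 2 * δ * X ∧
      (((Icc 1 X).filter fun u =>
        (1 + log (X : ℝ)) / δ < (u.divisors.card : ℕ)).card : ℝ) ≤ δ * X ∧
      ∀ r ∈ primeRange X ((Z₀ : ℝ) ^ j) y, 6 * ((1 + log (X : ℝ)) / δ) ^ 2 + 1 < r := by
  have hC0 := hC.1
  set cE : ℝ := 7 * 2 ^ E with hcE
  obtain ⟨K₁, hK₁⟩ := eventually_poly (6 * (cE / δ) ^ 2 + 2) (2 * E + 1)
  obtain ⟨K₂, hK₂⟩ := eventually_poly (2 * cE / δ + 2) (E + 1)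
  obtain ⟨K₃, hK₃⟩ := eventually_poly
    ((32 * cE / δ * (1 + 2 * E + C)) ^ 2 * 2 + 2) (2 * E + 3)
  refine ⟨max (max K₁ K₂) (max K₃ (max 6 ((768 * (4 * E + C) / δ) ^ 2))),
    fun X Z₀ y hzK hX1 hzy hyR hlogXz => ?_⟩
  set z := (Z₀ : ℝ) with hz
  obtain ⟨hz12, hz36⟩ := max_le_iff.1 hzK
  obtain ⟨hzK1, hzK2⟩ := max_le_iff.1 hz12
  obtain ⟨hzK3, hz6'⟩ := max_le_iff.1 hz36
  obtain ⟨hz6, hzsq⟩ := max_le_iff.1 hz6'
  set RR := primeRange X (z ^ j) y with hRR
  set U := Icc 1 X with hU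
  have hzj : z ≤ z ^ j := le_self_pow₀ (by linarith) (by omega)
  have hRRexp : ∀ r ∈ RR, exp z < r := fun r hr => by
    obtain ⟨-, h1, h2, -⟩ := mem_primeRange.1 hr
    exact (lt_log_iff_exp_lt (Nat.cast_pos.2 h1.pos)).1 (hzj.trans_lt h2)
  have hexpz : 2 ≤ exp z := by linarith [add_one_le_exp z]
  set N := ⌊exp z⌋₊ with hN
  have hN1 : 1 ≤ N := Nat.le_floor (by push_cast; linarith)
  have hNR : exp z / 2 ≤ (N : ℝ) := by
    have := Nat.lt_floor_add_one (exp z)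
    rw [← hN] at this
    linarith
  have hRRN : ∀ r ∈ RR, N < r := fun r hr => by
    exact_mod_cast lt_of_le_of_lt (Nat.floor_le (exp_pos z).le) (hRRexp r hr)
  set D := (1 + log (X : ℝ)) / δ with hD
  have hlogX0 : 0 ≤ log (X : ℝ) := log_natCast_nonneg X
  have hzE : 1 ≤ z ^ E := one_le_pow₀ (by linarith)
  have hrD : ∀ r ∈ RR, 6 * D ^ 2 + 1 < r := by
    intro r hr
    have h1 : D ≤ cE / δ * z ^ E := by
      rw [hD, div_mul_eq_mul_div]
      exact div_le_div_of_nonneg_right hlogXz hδ0.le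
    have h2 : D ^ 2 ≤ (cE / δ) ^ 2 * z ^ (2 * E) := by
      rw [mul_comm 2 E, pow_mul, ← mul_pow]
      exact pow_le_pow_left₀ (by positivity) h1 2
    have h3 : 1 ≤ z ^ (2 * E + 1) := one_le_pow₀ (by linarith)
    have h4 : z ^ (2 * E) ≤ z ^ (2 * E + 1) := pow_le_pow_right₀ (by linarith) (by omega)
    have h5 := mul_le_mul_of_nonneg_left h4 (sq_nonneg (cE / δ))
    have h6 := hK₁ z hzK1
    linarith [hRRexp r hr]
  have hB1 : ((U.filter fun u => ∃ r ∈ RR, r * r ∣ u).card : ℝ) ≤ δ * X := by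
    refine (fail_sq X RR hN1 hRRN).trans ?_
    rw [div_le_iff₀ (Nat.cast_pos.2 hN1), mul_right_comm]
    refine le_mul_of_one_le_left (Nat.cast_nonneg X) ?_
    have h := hK₂ z hzK2
    have h1 : 1 ≤ z ^ (E + 1) := one_le_pow₀ (by linarith)
    have h2 : 2 / δ ≤ 2 * cE / δ + 2 := by
      have : 1 ≤ cE := by
        rw [hcE]
        have : (1 : ℝ) ≤ 2 ^ E := one_le_pow₀ (by norm_num)
        linarith
      have : 2 / δ ≤ 2 * cE / δ := div_le_div_of_nonneg_right (by linarith) hδ0.le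
      linarith
    have h3 : 2 / δ ≤ exp z :=
      le_trans (h2.trans (le_mul_of_one_le_right (by positivity) h1)) h
    rw [div_le_iff₀ hδ0] at h3
    have := mul_le_mul_of_nonneg_left hNR hδ0.le
    linarith
  have hB2 : ((U.filter fun u => ∃ r ∈ RR, r ∣ u ∧ ∃ l ∈ u.primeFactors, r ∣ l - 1).card : ℝ)
      ≤ δ * X := by
    refine (fail_cong X RR hN1 fun r hr => ⟨(mem_primeRange.1 hr).2.1, hRRN r hr⟩).trans ?_
    rw [div_le_iff₀ (Nat.cast_pos.2 hN1), mul_right_comm, mul_comm (X : ℝ)]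
    refine mul_le_mul_of_nonneg_right ?_ (Nat.cast_nonneg X)
    have h := hK₂ z hzK2
    have h1 : z ^ E ≤ z ^ (E + 1) := pow_le_pow_right₀ (by linarith) (by omega)
    have h2 : 2 * cE / δ * z ^ E ≤ exp z := by
      refine le_trans ?_ h
      exact mul_le_mul (by linarith) h1 (by positivity) (by positivity)
    rw [div_mul_eq_mul_div, div_le_iff₀ hδ0] at h2
    have := mul_le_mul_of_nonneg_left hNR hδ0.le
    linarith
  have hB3 : ((U.filter fun u => ∃ r ∈ RR, r ∣ u ∧ ∃ q ∈ u.primeFactors, q ≠ r ∧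
      log (r : ℝ) ^ 8 < q ∧ (q : ZMod (r ^ 2)) ^ (r - 1) = 1).card : ℝ) ≤ 2 * δ * X := by
    refine (fail_bad hX1 RR (L₀ := z) (N := exp z) (by linarith) (exp_pos z) fun r hr =>
      ⟨(mem_primeRange.1 hr).2.1, hzj.trans (mem_primeRange.1 hr).2.2.1.le, (hRRexp r hr).le⟩).trans ?_
    rw [mul_comm (X : ℝ)]
    refine mul_le_mul_of_nonneg_right ?_ (Nat.cast_nonneg X)
    set m := ∑ r ∈ RR, 1 / (r : ℝ) with hm
    have hy1 : (1 : ℝ) ≤ y := le_trans (by linarith) hzy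
    have hl0 : 0 ≤ log z := log_nonneg (by linarith)
    have hmb : m ≤ (E : ℝ) * (1 + log z) + 1 + C := by
      refine P031.mass_le_upto hC ?_ RR fun r hr => ⟨(mem_primeRange.1 hr).2.1, ?_⟩
      · have : 0 ≤ (E : ℝ) * (1 + log z) := by positivity
        linarith
      · have hrp := (mem_primeRange.1 hr).2.1
        refine le_trans (log_le_log (log_pos (by exact_mod_cast hrp.one_lt)) (mem_primeRange.1 hr).2.2.2)
          ?_
        refine le_trans (log_le_log (by linarith) hyR) ?_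
        rw [log_pow, log_mul two_ne_zero (by linarith)]
        have := Real.log_two_lt_d9
        have := mul_le_mul_of_nonneg_left (show log 2 + log z ≤ 1 + log z by linarith)
          (Nat.cast_nonneg (α := ℝ) E)
        linarith
    exact mass_bound hδ0 hC0 hE0 (by linarith) hzsq (sum_nonneg fun r _ => by positivity) hmb
      hlogXz (by positivity) (hK₃ z hzK3)
  have hB4 : ((U.filter fun u => D < (u.divisors.card : ℕ)).card : ℝ) ≤ δ * X := by
    refine (fail_divisors X (by rw [hD]; positivity)).trans (le_of_eq ?_)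
    rw [hD]; field_simp
  exact ⟨hB1, hB2, hB3, hB4, hrD⟩

end Vale.Agent.P033
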